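import Vale.Agent.N324.Eng

/-!
The algorithms for the concrete scheduling problems, and their running time.
-/

namespace Vale.Agent.N324

open List Vale.Agent.Lib.PolyTime Vale.Agent.P324

/-- The input: graph, processing time, release dates, due dates, delays, gaps. -/
abbrev Dat := Raw × ℕ × List ℕ × List ℕ × List (List ℕ) × List (List ℕ) × List (ℕ × ℕ × ℕ)

/-- The graph. -/
def Dat.w (D : Dat) : List Bool := D.1.w
/-- The processing time. -/
def Dat.p (D : Dat) : ℕ := D.2.1
/-- The release dates. -/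
def Dat.r (D : Dat) : List ℕ := D.2.2.1
/-- The due dates. -/
def Dat.d (D : Dat) : List ℕ := D.2.2.2.1
/-- The delays. -/
def Dat.lag (D : Dat) : List (List ℕ) := D.2.2.2.2.1
/-- The communication delays. -/
def Dat.com (D : Dat) : List (List ℕ) := D.2.2.2.2.2.1
/-- The gaps. -/
def Dat.down (D : Dat) : List (ℕ × ℕ × ℕ) := D.2.2.2.2.2.2

/-- Minimum. -/
def mn (l : List ℕ) : ℕ := (best (fun x => x) l).sum

/-- Maximum. -/
def mx (l : List ℕ) : ℕ := (best (fun x => l.sum - x) l).sum

/-- The largest release date of a job and its predecessors. -/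
def loL (n : ℕ) (D : Dat) (v : ℕ) : ℕ :=
  mx (D.r.getD v 0 :: ((range n).filter fun u => ltL (preds D.w) u v).map fun u => D.r.getD u 0)

/-- The least due date of a job and its successors. -/
def hdL (n : ℕ) (D : Dat) (v : ℕ) : ℕ :=
  mn (D.d.getD v 0 :: ((range n).filter fun u => ltL (preds D.w) v u).map fun u => D.d.getD u 0)

/-- The atomic sets. -/
def atomsD (n : ℕ) (D : Dat) : List (List ℕ) :=
  atoms (preds D.w) ++ (range n).flatMap fun v =>
    [(range n).filter fun u => decide (hdL n D u < hdL n D v),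
      (range n).filter fun u => decide (loL n D v < loL n D u)]

/-- The possible start times. -/
def cand (L n : ℕ) (D : Dat) : List ℕ :=
  (D.r ++ D.down.map fun e => e.2.2).flatMap fun a =>
    (range ((L + 1) * n + 1)).flatMap fun k => (range (n + 1)).map fun j => a + k * D.p + j

/-- The parameters of the dynamic program. -/
def mkPar (m L n : ℕ) (D : Dat) : Par where
  n := n
  q := (L + 1 + 1) * D.p
  st x := (x - 1) / m
  ok1 v x := !arcW D.w v v && decide (D.r.getD v 0 ≤ (x - 1) / m) &&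
    decide ((x - 1) / m + D.p ≤ D.d.getD v 0) &&
    D.down.all fun e => !decide (e.1 = (x - 1) % m) || decide ((x - 1) / m + D.p ≤ e.2.1) ||
      decide (e.2.2 ≤ (x - 1) / m)
  ok2 u x v y := (!arcW D.w u v ||
      decide ((x - 1) / m + D.p + (D.lag.getD u []).getD v 0 * D.p +
        (if (x - 1) % m = (y - 1) % m then 0 else (D.com.getD u []).getD v 0) ≤ (y - 1) / m)) &&
    (!decide ((x - 1) % m = (y - 1) % m) || decide ((x - 1) / m + D.p ≤ (y - 1) / m) ||
      decide ((y - 1) / m + D.p ≤ (x - 1) / m))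
  cst x := (x - 1) / m
  F := grow^[2 * (L + 1 + 1) * m + 13] (atomsD n D)
  C := (cand L n D).flatMap fun t => (range m).map fun i => t * m + i + 1

/-- A schedule that meets all due dates and has the least sum of start times. -/
def solveD (m L : ℕ) (D : Dat) : List (List ℕ) :=
  solve (mkPar m L (nW D.w) D) (2 * (2 * (L + 1 + 1) * m))

/-- The output. -/
def outOf (m : ℕ) (l : List (List ℕ)) : Option (List (ℕ × ℕ)) :=
  (l.map fun τ => τ.map fun x => ((x - 1) / m, (x - 1) % m)).head?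

/-- Shifted due dates. -/
def setD (D : Dat) (c j : ℕ) : Dat :=
  (D.1, D.p, D.r, D.d.map (fun x => x + c + D.p - D.d.getD j 0), D.lag, D.com, D.down)

/-- The maximum lateness, up to an additive constant. -/
def lat (m : ℕ) (D : Dat) (τ : List ℕ) : ℕ :=
  mx ((range (nW D.w)).map fun v => (τ.getD v 0 - 1) / m + D.d.sum - D.d.getD v 0)

/-- The candidates for the least maximum lateness. -/
def lateC (m L : ℕ) (D : Dat) : List (List ℕ) :=
  solveD m L D ++ (cand L (nW D.w) D).flatMap fun c =>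
    (range (nW D.w)).flatMap fun j => solveD m L (setD D c j)

/-- A schedule of least maximum lateness. -/
def lateD (m L : ℕ) (D : Dat) : List (List ℕ) := best (lat m D) (lateC m L D)

/-! ### Polynomial time -/

variable {A : Set Word} {α : Type*} [Enc α] {D : α → Dat}

theorem pt_w (h : PT A D) : PT A fun a => (D a).w := PT.listOfRaw h.fst
theorem pt_p (h : PT A D) : PT A fun a => (D a).p := h.snd.fst
theorem pt_r (h : PT A D) : PT A fun a => (D a).r := h.snd.snd.fst
theorem pt_d (h : PT A D) : PT A fun a => (D a).d := h.snd.snd.snd.fst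
theorem pt_lag (h : PT A D) : PT A fun a => (D a).lag := h.snd.snd.snd.snd.fst
theorem pt_com (h : PT A D) : PT A fun a => (D a).com := h.snd.snd.snd.snd.snd.fst
theorem pt_down (h : PT A D) : PT A fun a => (D a).down := h.snd.snd.snd.snd.snd.snd

theorem pt_mn {l : α → List ℕ} (h : PT A l) : PT A fun a => mn (l a) :=
  (pt_best (w := fun _ x => x) PT.snd' h).sum

theorem pt_mx {l : α → List ℕ} (h : PT A l) : PT A fun a => mx (l a) :=
  (pt_best (w := fun a x => (l a).sum - x) ((h.comp PT.fst').sum.sub PT.snd') h).sum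

theorem pt_loL {v : α → ℕ} (h : PT A D) (hv : PT A v) :
    PT A fun a => loL (nW (D a).w) (D a) (v a) := by
  refine pt_mx (PT.cons (pt_get (pt_r h) hv) (PT.map (f := fun a u => (D a).r.getD u 0) ?_
    (pt_get (pt_r (h.comp PT.fst')) PT.snd')))
  exact PT.filter (f := fun a u => ltL (preds (D a).w) u (v a)) (pt_rangeN (pt_w h))
    (pt_ltL (pt_preds (pt_w (h.comp PT.fst'))) PT.snd' (hv.comp PT.fst'))

theorem pt_hdL {v : α → ℕ} (h : PT A D) (hv : PT A v) :
    PT A fun a => hdL (nW (D a).w) (D a) (v a) := by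
  refine pt_mn (PT.cons (pt_get (pt_d h) hv) (PT.map (f := fun a u => (D a).d.getD u 0) ?_
    (pt_get (pt_d (h.comp PT.fst')) PT.snd')))
  exact PT.filter (f := fun a u => ltL (preds (D a).w) (v a) u) (pt_rangeN (pt_w h))
    (pt_ltL (pt_preds (pt_w (h.comp PT.fst'))) (hv.comp PT.fst') PT.snd')

theorem pt_atomsD (h : PT A D) : PT A fun a => atomsD (nW (D a).w) (D a) := by
  refine (pt_atoms (pt_preds (pt_w h))).append (PT.flatMap (f := fun a v =>
    [(range (nW (D a).w)).filter fun u => decide (hdL (nW (D a).w) (D a) u < hdL (nW (D a).w) (D a) v),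
      (range (nW (D a).w)).filter fun u =>
        decide (loL (nW (D a).w) (D a) v < loL (nW (D a).w) (D a) u)]) (pt_rangeN (pt_w h)) ?_)
  have h1 : PT A fun p : α × ℕ => D p.1 := h.comp PT.fst'
  have h2 : PT A fun p : (α × ℕ) × ℕ => D p.1.1 := h.comp PT.fst'.fst
  refine PT.cons ?_ (PT.cons ?_ PT.nil)
  · exact PT.filter (f := fun (p : α × ℕ) u =>
      decide (hdL (nW (D p.1).w) (D p.1) u < hdL (nW (D p.1).w) (D p.1) p.2)) (pt_rangeN (pt_w h1))
      (PT.lt (pt_hdL h2 PT.snd') (pt_hdL h2 PT.fst'.snd))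
  · exact PT.filter (f := fun (p : α × ℕ) u =>
      decide (loL (nW (D p.1).w) (D p.1) p.2 < loL (nW (D p.1).w) (D p.1) u)) (pt_rangeN (pt_w h1))
      (PT.lt (pt_loL h2 PT.fst'.snd) (pt_loL h2 PT.snd'))

theorem pt_cand (L : ℕ) (h : PT A D) : PT A fun a => cand L (nW (D a).w) (D a) := by
  refine PT.flatMap (f := fun a x => (range ((L + 1) * nW (D a).w + 1)).flatMap fun k =>
    (range (nW (D a).w + 1)).map fun j => x + k * (D a).p + j)
    ((pt_r h).append (PT.map (f := fun _ e => e.2.2) (pt_down h) PT.snd'.snd.snd)) ?_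
  have h1 : PT A fun p : α × ℕ => D p.1 := h.comp PT.fst'
  have h2 : PT A fun p : (α × ℕ) × ℕ => D p.1.1 := h.comp PT.fst'.fst
  refine PT.flatMap (f := fun (p : α × ℕ) k =>
    (range (nW (D p.1).w + 1)).map fun j => p.2 + k * (D p.1).p + j)
    (PT.range (((PT.const _).mul (pt_nW (pt_w h1))).add (PT.const 1))
      (((PBd.const _).mul (pbd_nW (pt_w h1))).add (PBd.const 1))) ?_
  exact PT.map (f := fun (p : (α × ℕ) × ℕ) j => p.1.2 + p.2 * (D p.1.1).p + j)
    (PT.range ((pt_nW (pt_w h2)).add (PT.const 1)) ((pbd_nW (pt_w h2)).add (PBd.const 1)))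
    ((PT.fst'.fst.snd.add (PT.fst'.snd.mul (pt_p (h2.comp PT.fst')))).add PT.snd')

theorem pt_growk {F : α → List (List ℕ)} (hF : PT A F) (k : ℕ) :
    PT A fun a => grow^[k] (F a) := by
  induction k with
  | zero => exact hF
  | succ k ih => exact (pt_grow ih).congr fun a => by rw [Function.iterate_succ_apply']

theorem pt_st (m : ℕ) {x : α → ℕ} (h : PT A x) : PT A fun a => (x a - 1) / m :=
  (h.sub (PT.const 1)).div (PT.const m)

theorem pt_mc (m : ℕ) {x : α → ℕ} (h : PT A x) : PT A fun a => (x a - 1) % m :=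
  (h.sub (PT.const 1)).mod (PT.const m)

theorem ppt_mkPar (m L : ℕ) (h : PT A D) : PPT A fun a => mkPar m L (nW (D a).w) (D a) where
  n := pt_nW (pt_w h)
  nb := pbd_nW (pt_w h)
  q := (PT.const _).mul (pt_p h)
  st := pt_st m PT.snd'
  ok1 := by
    have h1 : PT A fun p : α × ℕ × ℕ => D p.1 := h.comp PT.fst'
    refine PT.and (PT.and (PT.and (pt_arcW (pt_w h1) PT.snd'.fst PT.snd'.fst).not
      (PT.le (pt_get (pt_r h1) PT.snd'.fst) (pt_st m PT.snd'.snd)))
      (PT.le ((pt_st m PT.snd'.snd).add (pt_p h1)) (pt_get (pt_d h1) PT.snd'.fst))) ?_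
    exact PT.all (f := fun (p : α × ℕ × ℕ) (e : ℕ × ℕ × ℕ) => !decide (e.1 = (p.2.2 - 1) % m) ||
      decide ((p.2.2 - 1) / m + (D p.1).p ≤ e.2.1) || decide (e.2.2 ≤ (p.2.2 - 1) / m))
      (pt_down h1) (PT.or (PT.or (PT.eqNat PT.snd'.fst (pt_mc m PT.fst'.snd.snd)).not
        (PT.le ((pt_st m PT.fst'.snd.snd).add (pt_p (h1.comp PT.fst'))) PT.snd'.snd.fst))
        (PT.le PT.snd'.snd.snd (pt_st m PT.fst'.snd.snd)))
  ok2 := by
    have h1 : PT A fun p : α × ℕ × ℕ × ℕ × ℕ => D p.1 := h.comp PT.fst'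
    have hu : PT A fun p : α × ℕ × ℕ × ℕ × ℕ => p.2.1 := PT.snd'.fst
    have hx : PT A fun p : α × ℕ × ℕ × ℕ × ℕ => p.2.2.1 := PT.snd'.snd.fst
    have hv : PT A fun p : α × ℕ × ℕ × ℕ × ℕ => p.2.2.2.1 := PT.snd'.snd.snd.fst
    have hy : PT A fun p : α × ℕ × ℕ × ℕ × ℕ => p.2.2.2.2 := PT.snd'.snd.snd.snd
    exact PT.and (PT.or (pt_arcW (pt_w h1) hu hv).not
      (PT.le ((((pt_st m hx).add (pt_p h1)).add
        ((pt_get (PT.getD (pt_lag h1) hu PT.nil) hv).mul (pt_p h1))).add
        (PT.ite (PT.eqNat (pt_mc m hx) (pt_mc m hy)) (PT.const 0)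
          (pt_get (PT.getD (pt_com h1) hu PT.nil) hv))) (pt_st m hy)))
      (PT.or (PT.or (PT.eqNat (pt_mc m hx) (pt_mc m hy)).not
        (PT.le ((pt_st m hx).add (pt_p h1)) (pt_st m hy)))
        (PT.le ((pt_st m hy).add (pt_p h1)) (pt_st m hx)))
  cst := pt_st m PT.snd'
  F := pt_growk (pt_atomsD h) _
  C := PT.flatMap (f := fun _ t => (range m).map fun i => t * m + i + 1) (pt_cand L h)
    (PT.map (f := fun (p : α × ℕ) i => p.2 * m + i + 1) (PT.const _)
      (((PT.fst'.snd.mul (PT.const m)).add PT.snd').add (PT.const 1)))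

theorem pt_solveD (m L : ℕ) (h : PT A D) : PT A fun a => solveD m L (D a) :=
  pt_solve (ppt_mkPar m L h) _

theorem pt_outOf (m : ℕ) {l : α → List (List ℕ)} (h : PT A l) : PT A fun a => outOf m (l a) :=
  (PT.map (f := fun _ τ => τ.map fun x => ((x - 1) / m, (x - 1) % m)) h
    (PT.map (f := fun (_ : α × List ℕ) x => ((x - 1) / m, (x - 1) % m)) PT.snd'
      ((pt_st m PT.snd').pair (pt_mc m PT.snd')))).head?

theorem pt_setD {c j : α → ℕ} (h : PT A D) (hc : PT A c) (hj : PT A j) :
    PT A fun a => setD (D a) (c a) (j a) := by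
  refine h.fst.pair ((pt_p h).pair ((pt_r h).pair (PT.pair ?_ ((pt_lag h).pair
    ((pt_com h).pair (pt_down h))))))
  exact PT.map (f := fun a x => x + c a + (D a).p - (D a).d.getD (j a) 0) (pt_d h)
    (((PT.snd'.add (hc.comp PT.fst')).add (pt_p (h.comp PT.fst'))).sub
      (pt_get (pt_d (h.comp PT.fst')) (hj.comp PT.fst')))

theorem pt_lat (m : ℕ) {τ : α → List ℕ} (h : PT A D) (hτ : PT A τ) :
    PT A fun a => lat m (D a) (τ a) :=
  pt_mx (PT.map (f := fun a v => ((τ a).getD v 0 - 1) / m + (D a).d.sum - (D a).d.getD v 0)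
    (pt_rangeN (pt_w h)) (((pt_st m (pt_get (hτ.comp PT.fst') PT.snd')).add
      (pt_d (h.comp PT.fst')).sum).sub (pt_get (pt_d (h.comp PT.fst')) PT.snd')))

theorem pt_lateD (m L : ℕ) (h : PT A D) : PT A fun a => lateD m L (D a) := by
  refine pt_best (w := fun a τ => lat m (D a) τ) (pt_lat m (h.comp PT.fst') PT.snd') ?_
  refine (pt_solveD m L h).append (PT.flatMap (f := fun a c =>
    (range (nW (D a).w)).flatMap fun j => solveD m L (setD (D a) c j)) (pt_cand L h) ?_)
  exact PT.flatMap (f := fun (p : α × ℕ) j => solveD m L (setD (D p.1) p.2 j))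
    (pt_rangeN (pt_w (h.comp PT.fst')))
    (pt_solveD m L (pt_setD (h.comp PT.fst'.fst) PT.fst'.snd PT.snd'))

end Vale.Agent.N324
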