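import Vale.Agent.N324.Cut

/-!
Short descriptions of job sets, decomposition trees, and the invariants of the two sides of a
description.
-/

namespace Vale.Agent.N324

open Finset

variable {V : Type*}

/-- Sets described by terms of bounded depth over the atoms. -/
inductive Term (At : Set V → Prop) : ℕ → Set V → Prop
  | atom {A : Set V} : At A → Term At 0 A
  | succ {k : ℕ} {A : Set V} : Term At k A → Term At (k + 1) A
  | union {k : ℕ} {A B : Set V} : Term At k A → Term At k B → Term At (k + 1) (A ∪ B)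
  | inter {k : ℕ} {A B : Set V} : Term At k A → Term At k B → Term At (k + 1) (A ∩ B)
  | sdiff {k : ℕ} {A B : Set V} : Term At k A → Term At k B → Term At (k + 1) (A \ B)

theorem Term.mono {At : Set V → Prop} {k k' : ℕ} {A : Set V} (h : Term At k A) (hk : k ≤ k') :
    Term At k' A := by
  induction hk with
  | refl => exact h
  | step _ ih => exact ih.succ

theorem Term.biUnion [DecidableEq V] {At : Set V → Prop} (h0 : At ∅) (g : V → Set V)
    (hg : ∀ v, At (g v)) (A : Finset V) : Term At A.card {u | ∃ a ∈ A, u ∈ g a} := by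
  induction A using Finset.induction_on with
  | empty => simpa using Term.atom h0
  | insert a A ha ih =>
    rw [card_insert_of_notMem ha]
    have e : {u | ∃ b ∈ insert a A, u ∈ g b} = g a ∪ {u | ∃ b ∈ A, u ∈ g b} := by
      ext u
      simp
    rw [e]
    exact ((Term.atom (hg a)).mono (Nat.zero_le _)).union ih

/-- Decomposition trees of a schedule: an interval is empty, or it is cut at the time of one of its
jobs into an earlier and a later interval; the job sets of all intervals belong to `F`. -/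
inductive Tree (F : Set V → Prop) (q : ℤ) (σ : V → ℤ) : ℤ → ℤ → Prop
  | leaf {s t : ℤ} : (∀ v, ¬ (s < σ v ∧ σ v < t)) → Tree F q σ s t
  | node {s t : ℤ} (c : V) : F {v | s < σ v ∧ σ v < t} → s < σ c → σ c < t →
      Tree F q σ s (σ c - q + 1) → Tree F q σ (σ c + q - 1) t → Tree F q σ s t

theorem Tree.congr {F : Set V → Prop} {q : ℤ} (hq : 1 ≤ q) {σ ρ : V → ℤ} {s t : ℤ}
    (h : Tree F q σ s t) (e : ∀ v, (s < σ v ∧ σ v < t) ∨ (s < ρ v ∧ ρ v < t) → ρ v = σ v) :
    Tree F q ρ s t := by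
  induction h with
  | leaf h0 =>
    refine Tree.leaf fun v hv => h0 v ?_
    rw [← e v (Or.inr hv)]
    exact hv
  | @node s t c h1 h2 h3 _ _ ih1 ih2 =>
    have hc := e c (Or.inl ⟨h2, h3⟩)
    refine Tree.node c ?_ (by omega) (by omega) ?_ ?_
    · have e' : {v | s < ρ v ∧ ρ v < t} = {v | s < σ v ∧ σ v < t} := by
        ext v
        constructor
        · intro hv
          have := e v (Or.inr hv)
          simp only [Set.mem_ofPred_eq] at hv ⊢
          omega
        · intro hv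
          have := e v (Or.inl hv)
          simp only [Set.mem_ofPred_eq] at hv ⊢
          omega
      rw [e']
      exact h1
    · rw [hc]
      exact ih1 fun v hv => e v (by omega)
    · rw [hc]
      exact ih2 fun v hv => e v (by omega)

theorem Tree.neg {F : Set V → Prop} {q : ℤ} {σ : V → ℤ} {s t : ℤ} (h : Tree F q σ s t) :
    Tree F q (fun v => - σ v) (-t) (-s) := by
  induction h with
  | leaf h0 => exact Tree.leaf fun v hv => h0 v (by omega)
  | @node s t c h1 h2 h3 _ _ ih1 ih2 =>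
    refine Tree.node c ?_ (by omega) (by omega) ?_ ?_
    · have e' : {v | -t < - σ v ∧ - σ v < -s} = {v | s < σ v ∧ σ v < t} := by
        ext v
        simp only [Set.mem_ofPred_eq]
        omega
      rw [e']
      exact h1
    · rwa [show -(σ c + q - 1) = - σ c - q + 1 by ring] at ih2
    · rwa [show -(σ c - q + 1) = - σ c + q - 1 by ring] at ih1

/-- The jobs that are pushed before the window around `f`. -/
def Pset (E : Env V) (σ : V → ℤ) (f : ℤ) : Set V :=
  {v | (∃ z, f - E.q < σ z ∧ σ z < f + E.q ∧ E.lt v z) ∨ E.hi v < f}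

/-- The jobs that are in the window around `f` or are pushed behind its beginning. -/
def Nset (E : Env V) (σ : V → ℤ) (f : ℤ) : Set V :=
  {v | (f - E.q < σ v ∧ σ v < f + E.q) ∨ (∃ z, f - E.q < σ z ∧ σ z < f + E.q ∧ E.lt z v) ∨
    f < E.lo v}

/-- One side of a description. -/
def uset (U P L N : Set V) : Set V := (U ∩ (P ∪ L)) \ N

theorem mem_uset {U P L N : Set V} {v : V} :
    v ∈ uset U P L N ↔ v ∈ U ∧ (v ∈ P ∨ v ∈ L) ∧ v ∉ N := by
  simp [uset, and_assoc]

/-- Invariants of the upper side of a description. -/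
structure SideU (E : Env V) (X : Set V) (s t : ℤ) (τ : V → ℤ) (U P L N : Set V) : Prop where
  tU : Term E.At (E.M + 10) U
  tP : Term E.At (E.M + 2) P
  tL : Term E.At 0 L
  tN : Term E.At (E.M + 2) N
  dU : ∀ u v, E.lt u v → v ∈ U → u ∈ U
  dP : ∀ u v, E.lt u v → v ∈ P → u ∈ P
  iL : ∀ u v, E.r u ≤ E.r v → v ∈ L → u ∈ L
  uN : ∀ u v, E.lt u v → u ∈ N → v ∈ N
  posN : ∀ v ∈ N, t ≤ τ v
  sub : ∀ v ∈ P, v ∉ N → v ∈ U
  strip : ∀ a, t ≤ τ a → τ a < t + E.q → a ∈ U → a ∈ N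
  preS : ∀ z v, t ≤ τ z → τ z < t + E.q → E.lt v z → v ∈ P
  hiS : ∀ v, E.hi v < t → v ∈ P
  inv : ∀ ρ, Sch E X s t τ ρ → ∀ x ∈ X, (∀ z ∈ X, ¬ E.lt x z) → x ∉ P → ∀ v ∈ N, v ∈ U →
    E.r v < E.r x → ρ x < E.lo v ∨ ∃ u, E.lt u v ∧ ρ x - E.q < ρ u ∧ ρ u < t

/-- Invariants of the lower side of a description. -/
def SideW (E : Env V) (X : Set V) (s t : ℤ) (τ : V → ℤ) (W P G N : Set V) : Prop :=
  SideU E.rev X (-t) (-s) (fun v => - τ v) W P G N

variable {E : Env V} {X : Set V} {s t : ℤ} {τ σ ρ : V → ℤ} {U P L N : Set V}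

theorem SideU.toRev (h : SideU E X s t τ U P L N) :
    SideW E.rev X (-t) (-s) (fun v => - τ v) U P L N := by
  unfold SideW
  simpa only [Env.rev_rev, neg_neg] using h

theorem SideU.term (h : SideU E X s t τ U P L N) : Term E.At (E.M + 12) (uset U P L N) :=
  (h.tU.inter ((h.tP.union (h.tL.mono (Nat.zero_le _))).mono (by omega))).sdiff
    (h.tN.mono (by omega))

theorem SideU.rebase (h : SideU E X s t τ U P L N) (h0 : Sch E X s t τ τ) (hσ : Sch E X s t τ σ) :
    SideU E X s t σ U P L N := by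
  have e : ∀ a, t ≤ σ a → σ a = τ a := fun a ha => hσ.out a fun h1 => by
    have := (hσ.mem a).1 h1
    omega
  exact { h with
    posN := fun v hv => by
      have h1 := h.posN v hv
      rw [hσ.out v fun h2 => by have := (h0.mem v).1 h2; omega]
      exact h1
    strip := fun a h1 h2 => h.strip a (e a h1 ▸ h1) (e a h1 ▸ h2)
    preS := fun z v h1 h2 => h.preS z v (e z h1 ▸ h1) (e z h1 ▸ h2)
    inv := fun ρ hρ => h.inv ρ (hσ.trans hρ) }

section Fin

variable [Fintype V] [DecidableEq V]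

/-- The upper side is inherited by the later part of the interval. -/
theorem SideU.right (hE : E.Good) (h : SideU E X s t σ U P L N) (hσ : Sch E X s t σ σ)
    {s' : ℤ} (hs : s ≤ s') {Y : Set V} (hY : ∀ v, v ∈ Y ↔ s' < σ v ∧ σ v < t) :
    SideU E Y s' t σ U P L N :=
  { h with
    inv := by
      intro ρ hρ x hx h1 h2 v hv h3 h4
      have hx' := (hY x).1 hx
      refine h.inv ρ (hσ.sub hs le_rfl hY hρ) x ((hσ.mem x).2 (by omega)) (fun z hz hxz => ?_)
        h2 v hv h3 h4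
      have := hE.mono σ hσ.ok x z hxz
      have := (hσ.mem z).1 hz
      exact h1 z ((hY z).2 (by omega)) hxz }

theorem SideU.uset_down (hE : E.Good) (h : SideU E X s t τ U P L N) {u v : V} (huv : E.lt u v)
    (hv : v ∈ uset U P L N) : u ∈ uset U P L N := by
  rw [mem_uset] at hv ⊢
  exact ⟨h.dU u v huv hv.1, hv.2.1.imp (h.dP u v huv) (h.iL u v (hE.rmono u v huv).le),
    fun h1 => hv.2.2 (h.uN u v huv h1)⟩

theorem term_P (hE : E.Good) (hσ : E.Ok σ) (f : ℤ) : Term E.At (E.M + 2) (Pset E σ f) := by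
  have h1 := (Term.biUnion hE.a0 _ hE.a3 _).mono (hE.card σ hσ f)
  have h2 := h1.union ((Term.atom (hE.a7 f)).mono (Nat.zero_le _))
  refine Term.succ ?_
  have e : Pset E σ f = {u | ∃ a ∈ univ.filter fun z => f - E.q < σ z ∧ σ z < f + E.q,
      u ∈ {u | E.lt u a}} ∪ {u | E.hi u < f} := by
    ext u
    simp [Pset, and_assoc]
  rw [e]
  exact h2

theorem term_N (hE : E.Good) (hσ : E.Ok σ) (f : ℤ) : Term E.At (E.M + 2) (Nset E σ f) := by
  have h0 := (Term.biUnion hE.a0 _ hE.a2 _).mono (hE.card σ hσ f)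
  have h1 := (Term.biUnion hE.a0 _ hE.a4 _).mono (hE.card σ hσ f)
  have h2 := (h0.union h1).union ((Term.atom (hE.a8 f)).mono (Nat.zero_le _))
  have e : Nset E σ f = {u | ∃ a ∈ univ.filter fun z => f - E.q < σ z ∧ σ z < f + E.q,
      u ∈ ({a} : Set V)} ∪ {u | ∃ a ∈ univ.filter fun z => f - E.q < σ z ∧ σ z < f + E.q,
      u ∈ {u | E.lt a u}} ∪ {u | f < E.lo u} := by
    ext u
    simp [Nset, and_assoc, or_assoc]
  rw [e]
  exact h2

theorem Pset_down (hE : E.Good) (σ : V → ℤ) (f : ℤ) (u v : V) (huv : E.lt u v)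
    (hv : v ∈ Pset E σ f) : u ∈ Pset E σ f := by
  rcases hv with ⟨z, h1, h2, h3⟩ | h1
  · exact Or.inl ⟨z, h1, h2, hE.tr _ _ _ huv h3⟩
  · exact Or.inr ((hE.himono u v huv).trans_lt h1)

theorem Nset_up (hE : E.Good) (σ : V → ℤ) (f : ℤ) (u v : V) (huv : E.lt u v)
    (hu : u ∈ Nset E σ f) : v ∈ Nset E σ f := by
  rcases hu with h1 | ⟨z, h1, h2, h3⟩ | h1
  · exact Or.inr (Or.inl ⟨u, h1.1, h1.2, huv⟩)
  · exact Or.inr (Or.inl ⟨z, h1, h2, hE.tr _ _ _ h3 huv⟩)
  · exact Or.inr (Or.inr (h1.trans_le (hE.lomono u v huv)))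

theorem Nset_pos (hE : E.Good) (hσ : E.Ok σ) {f : ℤ} {v : V} (hv : v ∈ Nset E σ f) :
    f - E.q + 1 ≤ σ v := by
  have := hE.q1
  rcases hv with h1 | ⟨z, h1, -, h3⟩ | h1
  · omega
  · have := hE.mono σ hσ z v h3
    omega
  · have := hE.lo_le σ hσ v
    omega

theorem Pset_pos (hE : E.Good) (hσ : E.Ok σ) {f : ℤ} {v : V} (hv : v ∈ Pset E σ f)
    (hN : v ∉ Nset E σ f) : σ v < f - E.q + 1 := by
  have := hE.q1
  by_contra h0
  refine hN (Or.inl ⟨by omega, ?_⟩)
  rcases hv with ⟨z, -, h2, h3⟩ | h1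
  · have := hE.mono σ hσ v z h3
    omega
  · have := hE.le_hi σ hσ v
    omega

/-- Jobs pushed before the window belong to the old upper side. -/
theorem SideU.pset_mem (hE : E.Good) (hU : SideU E X s t σ U P L N) (hσ : Sch E X s t σ σ)
    (hX : ∀ v ∈ X, v ∈ uset U P L N) {f : ℤ} (hs : s ≤ f - E.q) (hf : f < t) {v : V}
    (hv : v ∈ Pset E σ f) (hN : v ∉ Nset E σ f) : v ∈ uset U P L N := by
  have hq := hE.q1
  have h0 := Pset_pos hE hσ.ok hv hN
  have hvN : v ∉ N := fun h1 => by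
    have := hU.posN v h1
    omega
  have hP : v ∈ P → v ∈ uset U P L N := fun h1 => mem_uset.2 ⟨hU.sub v h1 hvN, Or.inl h1, hvN⟩
  rcases hv with ⟨z, h1, h2, h3⟩ | h1
  · by_cases hz : z ∈ X
    · exact hU.uset_down hE h3 (hX z hz)
    · have h4 : t ≤ σ z := by
        by_contra h4
        exact hz ((hσ.mem z).2 (by omega))
      exact hP (hU.preS z v h4 (by omega) h3)
  · exact hP (hU.hiS v (by omega))

/-- The description of the earlier part of a cut. -/
theorem desc (hE : E.Good) (hU : SideU E X s t σ U P L N) (hσ : Sch E X s t σ σ) {Y : Set V}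
    (hX : X = uset U P L N ∩ Y) {f : ℤ} (hs : s ≤ f - E.q) (hf : f < t) {D K : Set V}
    (gl : ∀ v ∈ X, v ∉ D → σ v < f → v ∈ Pset E σ f)
    (gr : ∀ v ∈ X, v ∈ D → f < σ v → v ∈ Nset E σ f) (hK1 : ∀ v ∈ X, v ∈ D → v ∈ K)
    (hK2 : ∀ v ∈ K, v ∈ D) (hK3 : ∀ v ∈ K, v ∉ Nset E σ f → v ∈ uset U P L N) (v : V) :
    (s < σ v ∧ σ v < f - E.q + 1) ↔ v ∈ ((K ∪ Pset E σ f) \ Nset E σ f) ∩ Y := by
  have hq := hE.q1
  have hXm : ∀ v, v ∈ X ↔ v ∈ uset U P L N ∧ v ∈ Y := fun v => by rw [hX]; rfl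
  constructor
  · intro hv
    have hvX : v ∈ X := (hσ.mem v).2 (by omega)
    refine ⟨⟨?_, fun h1 => ?_⟩, ((hXm v).1 hvX).2⟩
    · by_cases h1 : v ∈ D
      · exact Or.inl (hK1 v hvX h1)
      · exact Or.inr (gl v hvX h1 (by omega))
    · have := Nset_pos hE hσ.ok h1
      omega
  · rintro ⟨⟨h1, h2⟩, h3⟩
    have hvX : v ∈ X := by
      refine (hXm v).2 ⟨?_, h3⟩
      rcases h1 with h1 | h1
      · exact hK3 v h1 h2
      · exact hU.pset_mem hE hσ (fun u hu => ((hXm u).1 hu).1) hs hf h1 h2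
    refine ⟨((hσ.mem v).1 hvX).1, ?_⟩
    rcases h1 with h1 | h1
    · by_contra h4
      by_cases h5 : f < σ v
      · exact h2 (gr v hvX (hK2 v h1) h5)
      · exact h2 (Or.inl ⟨by omega, by omega⟩)
    · exact Pset_pos hE hσ.ok h1 h2

/-- A fresh upper side. -/
theorem SideU.fresh (hE : E.Good) (hσ : E.Ok σ) (X : Set V) (s f : ℤ) {K : Set V}
    (hK : Term E.At (E.M + 8) K) (dK : ∀ u v, E.lt u v → v ∈ K → u ∈ K) :
    SideU E X s (f - E.q + 1) σ ((K ∪ Pset E σ f) \ Nset E σ f) (Pset E σ f) Set.univ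
      (Nset E σ f) where
  tU := (hK.union ((term_P hE hσ f).mono (by omega))).sdiff ((term_N hE hσ f).mono (by omega))
  tP := term_P hE hσ f
  tL := Term.atom hE.a1
  tN := term_N hE hσ f
  dU u v huv hv := ⟨hv.1.imp (dK u v huv) (Pset_down hE σ f u v huv),
    fun h1 => hv.2 (Nset_up hE σ f u v huv h1)⟩
  dP := Pset_down hE σ f
  iL _ _ _ _ := Set.mem_univ _
  uN := Nset_up hE σ f
  posN _ hv := Nset_pos hE hσ hv
  sub _ h1 h2 := ⟨Or.inr h1, h2⟩
  strip a h1 h2 _ := Or.inl (by have := hE.q1; omega)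
  preS z v h1 h2 h3 := Or.inl ⟨z, by omega, by have := hE.q1; omega, h3⟩
  hiS v h1 := Or.inr (by have := hE.q1; omega)
  inv _ _ _ _ _ _ _ hv h1 := absurd hv h1.2

omit [Fintype V] [DecidableEq V] in
theorem uset_fresh (K P N : Set V) : uset ((K ∪ P) \ N) P Set.univ N = (K ∪ P) \ N := by
  ext v
  simp only [mem_uset, Set.mem_sdiff, Set.mem_univ, or_true, true_and]
  tauto

omit [Fintype V] [DecidableEq V] in
theorem GoodL.pset {D : Set V} {f : ℤ} (hq : 1 ≤ E.q) (h : GoodL E X σ D f) :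
    ∀ v ∈ X, v ∉ D → σ v < f → v ∈ Pset E σ f := fun v hv h1 h2 =>
  (h v hv h1 h2).imp (fun ⟨z, h3, h4, h5⟩ => ⟨z, by omega, h4, h5⟩) id

omit [Fintype V] [DecidableEq V] in
theorem GoodL.nset {D : Set V} {f : ℤ} (hq : 1 ≤ E.q) (h : GoodL E X σ D f) :
    ∀ v ∈ X, v ∈ Dᶜ → -f < - σ v → v ∈ Nset E.rev (fun v => - σ v) (-f) := by
  intro v hv h1 h2
  rcases h v hv h1 (by omega) with ⟨z, h3, h4, h5⟩ | h3
  · exact Or.inr (Or.inl ⟨z, by simp only [Env.rev]; omega, by simp only [Env.rev]; omega, h5⟩)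
  · exact Or.inr (Or.inr (by simp only [Env.rev]; omega))

omit [Fintype V] [DecidableEq V] in
theorem GoodR.nset {D : Set V} {f : ℤ} (hq : 1 ≤ E.q) (h : GoodR E X σ D f) :
    ∀ v ∈ X, v ∈ D → f < σ v → v ∈ Nset E σ f := fun v hv h1 h2 =>
  Or.inr ((h v hv h1 h2).imp (fun ⟨z, h3, h4, h5⟩ => ⟨z, h3, by omega, h5⟩) id)

omit [Fintype V] [DecidableEq V] in
theorem GoodR.pset {D : Set V} {f : ℤ} (hq : 1 ≤ E.q) (h : GoodR E X σ D f) :
    ∀ v ∈ X, v ∉ Dᶜ → - σ v < -f → v ∈ Pset E.rev (fun v => - σ v) (-f) := by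
  intro v hv h1 h2
  rcases h v hv (not_not.1 h1) (by omega) with ⟨z, h3, h4, h5⟩ | h3
  · exact Or.inl ⟨z, by simp only [Env.rev]; omega, by simp only [Env.rev]; omega, h5⟩
  · exact Or.inr (by simp only [Env.rev]; omega)

/-- Jobs of small rank that are in the old upper set and not pushed behind the window belong to
the old upper side. -/
theorem SideU.low_mem (hE : E.Good) (hU : SideU E X s t σ U P L N) (hσ : Sch E X s t σ σ)
    {f : ℤ} (hs : s ≤ f - E.q) {x : V} (hx : x ∈ X) (hsink : ∀ z ∈ X, ¬ E.lt x z) (hxP : x ∉ P)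
    (hxL : x ∈ L) (hfx : f ≤ σ x) {D : Set V} (hD : ∀ u v, E.lt u v → v ∈ D → u ∈ D)
    (hDx : ∀ v ∈ D, E.r v < E.r x) (gr : ∀ v ∈ X, v ∈ D → f < σ v → v ∈ Nset E σ f) :
    ∀ v ∈ U ∩ D, v ∉ Nset E σ f → v ∈ uset U P L N := by
  have hq := hE.q1
  intro v hv h2
  have hr := hDx v hv.2
  refine mem_uset.2 ⟨hv.1, Or.inr (hU.iL v x hr.le hxL), fun hN => h2 ?_⟩
  rcases hU.inv σ hσ x hx hsink hxP v hN hv.1 hr with h3 | ⟨u, h3, h4, h5⟩
  · exact Or.inr (Or.inr (by omega))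
  · refine Nset_up hE σ f u v h3 ?_
    by_cases h6 : σ u < f + E.q
    · exact Or.inl ⟨by omega, h6⟩
    · exact gr u ((hσ.mem u).2 (by omega)) (hD u v h3 hv.2) (by omega)

omit [Fintype V] [DecidableEq V] in
/-- Rearranging jobs outside the window does not change the two sets. -/
theorem sets_congr {f : ℤ}
    (e : ∀ v, (f - E.q < σ v ∧ σ v < f + E.q) ↔ (f - E.q < ρ v ∧ ρ v < f + E.q)) :
    Pset E ρ f = Pset E σ f ∧ Nset E ρ f = Nset E σ f := by
  have e' : ∀ (v : V) (p : Prop), (f - E.q < ρ v ∧ ρ v < f + E.q ∧ p) ↔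
      (f - E.q < σ v ∧ σ v < f + E.q ∧ p) := fun v p => by
    rw [← and_assoc, ← and_assoc, e v]
  constructor
  · ext v
    simp only [Pset, Set.mem_ofPred_eq, e']
  · ext v
    simp only [Nset, Set.mem_ofPred_eq, e', e v]

/-- Assembling the two parts of a cut. -/
theorem join (hE : E.Good) {F : Set V → Prop} (hσ : Sch E X s t τ σ) (hF : F X) {c : V}
    (hc : c ∈ X)
    (hL : ∃ ρ, Sch E {v | s < σ v ∧ σ v < σ c - E.q + 1} s (σ c - E.q + 1) σ ρ ∧
      Tree F E.q ρ s (σ c - E.q + 1))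
    (hR : ∀ ρ, Sch E X s t σ ρ →
      Sch E {v | σ c + E.q - 1 < σ v ∧ σ v < t} (σ c + E.q - 1) t ρ ρ →
      (∀ v, (σ c - E.q < σ v ∧ σ v < σ c + E.q) ↔ (σ c - E.q < ρ v ∧ ρ v < σ c + E.q)) →
      ∃ π, Sch E {v | σ c + E.q - 1 < σ v ∧ σ v < t} (σ c + E.q - 1) t ρ π ∧
        Tree F E.q π (σ c + E.q - 1) t) :
    ∃ π, Sch E X s t τ π ∧ Tree F E.q π s t := by
  have hq := hE.q1
  have hc' := (hσ.mem c).1 hc
  obtain ⟨ρ, hρ, t1⟩ := hL
  have hρ' : Sch E X s t τ ρ := hσ.sub le_rfl (by omega) (fun _ => Iff.rfl) hρ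
  have e2 : ∀ v, v ∈ {v | σ c + E.q - 1 < σ v ∧ σ v < t} ↔ σ c + E.q - 1 < ρ v ∧ ρ v < t := by
    intro v
    simp only [Set.mem_ofPred_eq]
    by_cases h1 : s < σ v ∧ σ v < σ c - E.q + 1
    · have := (hρ.mem v).1 h1
      omega
    · rw [hρ.out v h1]
  obtain ⟨π, hπ, t2⟩ := hR ρ (hσ.refl.sub le_rfl (by omega) (fun _ => Iff.rfl) hρ)
    ⟨hρ.ok, e2, fun _ _ => rfl⟩ (fun v => by
      by_cases h1 : s < σ v ∧ σ v < σ c - E.q + 1
      · have := (hρ.mem v).1 h1
        omega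
      · rw [hρ.out v h1])
  have hπ' : Sch E X s t τ π := hρ'.sub (by omega) le_rfl e2 hπ
  have ec : π c = σ c := by
    rw [hπ.out c (fun h1 => by have := h1.1; omega), hρ.out c (fun h1 => by have := h1.2; omega)]
  refine ⟨π, hπ', Tree.node c ?_ (by omega) (by omega) ?_ ?_⟩
  · have e : {v | s < π v ∧ π v < t} = X := by
      ext v
      exact (hπ'.mem v).symm
    rw [e]
    exact hF
  · rw [ec]
    refine t1.congr hq fun v hv => hπ.out v fun h1 => ?_
    have h2 := (e2 v).1 h1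
    have h3 := (hπ.mem v).1 h1
    omega
  · rw [ec]
    exact t2

end Fin

end Vale.Agent.N324
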