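import Vale.Agent.N324.Eng
import Vale.Agent.N324.Side

/-!
Correctness of the dynamic program.
-/

namespace Vale.Agent.N324

open List

variable {P : Par}

theorem getD_map_range {n : ℕ} (f : ℕ → ℕ) {i : ℕ} (hi : i < n) :
    ((range n).map f).getD i 0 = f i := by
  rw [getD_eq_getElem _ _ (by simpa using hi)]
  simp

theorem valid_iff {τ : List ℕ} : valid P τ = true ↔ ∀ u : Fin P.n, τ.getD u 0 ≠ 0 →
    P.ok1 u (τ.getD u 0) = true ∧ ∀ v : Fin P.n, τ.getD v 0 ≠ 0 → u ≠ v →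
      P.ok2 u (τ.getD u 0) v (τ.getD v 0) = true := by
  simp only [valid, all_eq_true, mem_range, Bool.or_eq_true, decide_eq_true_eq, Bool.and_eq_true]
  constructor
  · intro h u hu
    rcases h u u.2 with h1 | h1
    · exact absurd h1 hu
    · refine ⟨h1.1, fun v hv huv => ?_⟩
      rcases h1.2 v v.2 with (h2 | h2) | h2
      · exact absurd h2 hv
      · exact absurd (Fin.ext h2) huv
      · exact h2
  · intro h u hu
    by_cases h0 : τ.getD u 0 = 0
    · exact Or.inl h0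
    · refine Or.inr ⟨(h ⟨u, hu⟩ h0).1, fun v hv => ?_⟩
      by_cases h1 : τ.getD v 0 = 0
      · exact Or.inl (Or.inl h1)
      · by_cases h2 : u = v
        · exact Or.inl (Or.inr h2)
        · exact Or.inr ((h ⟨u, hu⟩ h0).2 ⟨v, hv⟩ h1 fun e => h2 (congrArg Fin.val e))

theorem fits_of {k : Key} {τ : List ℕ}
    (h1 : ∀ v : Fin P.n, v.val ∈ k.2.2.1 → τ.getD v 0 ≠ 0 ∧ k.1 ≤ P.st (τ.getD v 0) ∧
      P.st (τ.getD v 0) + P.q ≤ k.2.1)
    (h2 : ∀ v : Fin P.n, v.val ∉ k.2.2.1 → τ.getD v 0 = k.2.2.2.getD v 0) :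
    fits P k τ = true := by
  simp only [fits, all_eq_true, mem_range]
  intro v hv
  split_ifs with h
  · obtain ⟨h3, h4, h5⟩ := h1 ⟨v, hv⟩ h
    simp only [Bool.and_eq_true, Bool.not_eq_true', decide_eq_false_iff_not, decide_eq_true_eq]
    exact ⟨⟨h3, h4⟩, h5⟩
  · exact decide_eq_true (h2 ⟨v, hv⟩ h)

theorem of_fits {k : Key} {τ : List ℕ} (h : fits P k τ = true) (v : Fin P.n) :
    (v.val ∈ k.2.2.1 → τ.getD v 0 ≠ 0 ∧ k.1 ≤ P.st (τ.getD v 0) ∧
      P.st (τ.getD v 0) + P.q ≤ k.2.1) ∧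
    (v.val ∉ k.2.2.1 → τ.getD v 0 = k.2.2.2.getD v 0) := by
  simp only [fits, all_eq_true, mem_range] at h
  have h1 := h v v.2
  constructor
  · intro hv
    rw [if_pos hv] at h1
    simp only [Bool.and_eq_true, Bool.not_eq_true', decide_eq_false_iff_not,
      decide_eq_true_eq] at h1
    exact ⟨h1.1.1, h1.1.2, h1.2⟩
  · intro hv
    rw [if_neg hv] at h1
    exact of_decide_eq_true h1

theorem cost_eq (τ : List ℕ) : cost P τ = ∑ v : Fin P.n, P.cst (τ.getD v 0) := by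
  rw [cost, Fin.sum_univ_eq_sum_range (fun v => P.cst (τ.getD v 0)), Finset.sum_range,
    ← List.sum_ofFn]
  congr 1
  refine ext_getElem (by simp) fun i h1 h2 => ?_
  simp

theorem exists_beta (k : ℕ) (f : Fin P.n → ℕ) (hf : ∀ v, f v = 0 ∨ f v ∈ P.C)
    (hk : (Finset.univ.filter fun v => f v ≠ 0).card ≤ k) :
    ∃ β ∈ betas P k, ∀ v : Fin P.n, β.getD v 0 = f v := by
  induction k generalizing f with
  | zero =>
    refine ⟨_, mem_singleton.2 rfl, fun v => ?_⟩
    rw [getD_map_range _ v.2]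
    by_contra h
    have : 0 < (Finset.univ.filter fun v => f v ≠ 0).card :=
      Finset.card_pos.2 ⟨v, Finset.mem_filter.2 ⟨Finset.mem_univ _, fun e => h e.symm⟩⟩
    omega
  | succ k ih =>
    by_cases h : (Finset.univ.filter fun v => f v ≠ 0).card ≤ k
    · obtain ⟨β, hβ, e⟩ := ih f hf h
      exact ⟨β, mem_append_left _ hβ, e⟩
    · obtain ⟨w, hw⟩ : (Finset.univ.filter fun v => f v ≠ 0).Nonempty :=
        Finset.card_pos.1 (by omega)
      obtain ⟨β, hβ, e⟩ := ih (Function.update f w 0) (fun v => by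
        by_cases h1 : v = w
        · subst h1
          simp
        · rw [Function.update_of_ne h1]
          exact hf v) (by
        have : (Finset.univ.filter fun v => Function.update f w 0 v ≠ 0) =
            (Finset.univ.filter fun v => f v ≠ 0).erase w := by
          ext v
          by_cases h1 : v = w
          · subst h1
            simp
          · simp [h1]
        rw [this, Finset.card_erase_of_mem hw]
        omega)
      have hw' : f w ∈ P.C := (hf w).resolve_left (Finset.mem_filter.1 hw).2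
      refine ⟨upd P.n β w (f w), mem_append_right _ (mem_flatMap.2 ⟨β, hβ, mem_flatMap.2
        ⟨w, mem_range.2 w.2, mem_map.2 ⟨f w, hw', rfl⟩⟩⟩), fun v => ?_⟩
      rw [upd, getD_map_range _ v.2]
      by_cases h1 : v = w
      · subst h1
        simp
      · rw [if_neg fun e => h1 (Fin.ext e), e, Function.update_of_ne h1]

/-- A reference schedule. -/
structure Ref (P : Par) (M : ℕ) (Fam : Set (Fin P.n) → Prop) (σ : Fin P.n → ℕ) : Prop where
  ne : ∀ v, σ v ≠ 0
  mem : ∀ v, σ v ∈ P.C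
  ok1 : ∀ v : Fin P.n, P.ok1 v (σ v) = true
  ok2 : ∀ u v : Fin P.n, u ≠ v → P.ok2 u (σ u) v (σ v) = true
  loc : ∀ u v : Fin P.n, P.st (σ u) < P.st (σ v) → ∀ x y, P.st x + P.q ≤ P.st y →
    P.ok2 u x v y = true ∧ P.ok2 v y u x = true
  win : ∀ f : ℤ, (Finset.univ.filter fun z =>
    f - P.q < P.st (σ z) ∧ (P.st (σ z) : ℤ) < f + P.q).card ≤ M
  q1 : 1 ≤ P.q
  fam : ∀ X, Fam X → ∃ A ∈ P.F, ∀ v : Fin P.n, v.val ∈ A ↔ v ∈ X
  fam0 : ∃ A ∈ P.F, ∀ v : Fin P.n, v.val ∉ A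

/-- The part of the reference schedule that belongs to the bounds `a`, `b`. -/
def res (P : Par) (σ : Fin P.n → ℕ) (a b : ℕ) (v : Fin P.n) : ℕ :=
  if a ≤ P.st (σ v) + P.q ∧ P.st (σ v) ≤ b then σ v else 0

/-- The jobs between the strips. -/
def zone (P : Par) (σ : Fin P.n → ℕ) (a b : ℕ) (v : Fin P.n) : Prop :=
  a ≤ P.st (σ v) ∧ P.st (σ v) + P.q ≤ b

instance (σ : Fin P.n → ℕ) (a b : ℕ) : DecidablePred (zone P σ a b) :=
  fun _ => inferInstanceAs (Decidable (_ ∧ _))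

/-- An entry that is at least as good as the reference schedule. -/
structure Ent (P : Par) (σ : Fin P.n → ℕ) (a b : ℕ) (τ : List ℕ) : Prop where
  val : valid P τ = true
  zin : ∀ v : Fin P.n, zone P σ a b v → τ.getD v 0 ≠ 0 ∧ a ≤ P.st (τ.getD v 0) ∧
    P.st (τ.getD v 0) + P.q ≤ b
  zout : ∀ v : Fin P.n, ¬ zone P σ a b v → τ.getD v 0 = res P σ a b v
  le : cost P τ ≤ ∑ v, P.cst (res P σ a b v)

variable {M : ℕ} {Fam : Set (Fin P.n) → Prop} {σ : Fin P.n → ℕ}

theorem Ref.beta (h : Ref P M Fam σ) (a b : ℕ) : ∃ β ∈ betas P (2 * M), ∀ v : Fin P.n,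
    β.getD v 0 = if zone P σ a b v then 0 else res P σ a b v := by
  refine exists_beta _ _ (fun v => ?_) ?_
  · unfold res
    split_ifs
    · exact Or.inl rfl
    · exact Or.inr (h.mem v)
    · exact Or.inl rfl
  · refine le_trans (Finset.card_le_card (t := (Finset.univ.filter fun z =>
      ((a : ℤ) - 1) - P.q < P.st (σ z) ∧ (P.st (σ z) : ℤ) < (a - 1) + P.q) ∪
      (Finset.univ.filter fun z => (b : ℤ) - P.q < P.st (σ z) ∧ (P.st (σ z) : ℤ) < b + P.q))
      fun v hv => ?_) ((Finset.card_union_le _ _).trans ?_)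
    · have hq := h.q1
      simp only [Finset.mem_filter, Finset.mem_univ, true_and, Finset.mem_union] at hv ⊢
      by_cases h1 : zone P σ a b v
      · rw [if_pos h1] at hv
        exact absurd rfl hv
      · rw [if_neg h1, res] at hv
        unfold zone at h1
        split_ifs at hv with h2
        · omega
        · exact absurd rfl hv
    · have h1 := h.win ((a : ℤ) - 1)
      have h2 := h.win b
      omega

theorem Ref.step (h : Ref P M Fam σ) {a b : ℕ} (ha : a ∈ 0 :: P.C.map fun x => P.st x + P.q)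
    (hb : b ∈ top P :: P.C.map P.st) {A : List ℕ} (hA : A ∈ P.F)
    (hA' : ∀ v : Fin P.n, v.val ∈ A ↔ zone P σ a b v) {tab : List (List ℕ)} {τ : List ℕ}
    (hτ : τ ∈ cands P (2 * M) tab) (he : Ent P σ a b τ) :
    ∃ ρ ∈ round P (2 * M) tab, Ent P σ a b ρ := by
  obtain ⟨β, hβ, e⟩ := h.beta a b
  have hk : ((a, b, A, β) : Key) ∈ keys P (2 * M) :=
    mem_flatMap.2 ⟨a, ha, mem_flatMap.2 ⟨b, hb, mem_flatMap.2 ⟨A, hA, mem_map.2 ⟨β, hβ, rfl⟩⟩⟩⟩
  have h1 : τ ∈ (cands P (2 * M) tab).filter fun τ => valid P τ && fits P (a, b, A, β) τ := by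
    refine mem_filter.2 ⟨hτ, ?_⟩
    rw [Bool.and_eq_true]
    refine ⟨he.val, fits_of (fun v hv => he.zin v ((hA' v).1 hv)) fun v hv => ?_⟩
    have h2 : ¬ zone P σ a b v := fun h2 => hv ((hA' v).2 h2)
    rw [he.zout v h2, e, if_neg h2]
  obtain ⟨ρ, hρ⟩ := best_ne (cost P) h1
  have h2 : ρ ∈ best (cost P) ((cands P (2 * M) tab).filter fun τ =>
      valid P τ && fits P (a, b, A, β) τ) := by
    rw [hρ]
    exact mem_singleton.2 rfl
  obtain ⟨h3, h4⟩ := mem_of_best h2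
  have h5 := (mem_filter.1 h3).2
  rw [Bool.and_eq_true] at h5
  refine ⟨ρ, mem_flatMap.2 ⟨_, hk, h2⟩, h5.1, fun v hv => (of_fits h5.2 v).1 ((hA' v).2 hv),
    fun v hv => ?_, (h4 τ h1).trans he.le⟩
  rw [(of_fits h5.2 v).2 fun h6 => hv ((hA' v).1 h6), e, if_neg hv]

theorem Ref.leaf (h : Ref P M Fam σ) {a b : ℕ} (h0 : ∀ v, ¬ zone P σ a b v) :
    ∃ β ∈ betas P (2 * M), Ent P σ a b β := by
  obtain ⟨β, hβ, e⟩ := h.beta a b
  have e' : ∀ v : Fin P.n, β.getD v 0 = res P σ a b v := fun v => by rw [e, if_neg (h0 v)]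
  have e1 : ∀ v : Fin P.n, β.getD v 0 ≠ 0 → β.getD v 0 = σ v := fun v hv => by
    rw [e'] at hv ⊢
    unfold res at hv ⊢
    split_ifs at hv ⊢
    · rfl
    · exact absurd rfl hv
  refine ⟨β, hβ, valid_iff.2 fun u hu => ⟨by rw [e1 u hu]; exact h.ok1 u, fun v hv huv => by
    rw [e1 u hu, e1 v hv]; exact h.ok2 u v huv⟩, fun v hv => absurd hv (h0 v), fun v _ => e' v, ?_⟩
  rw [cost_eq]
  exact le_of_eq (Finset.sum_congr rfl fun v _ => by rw [e'])

theorem Ref.glue (h : Ref P M Fam σ) {a b g : ℕ} (ha : a ≤ g) (hb : g + P.q ≤ b)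
    {τ₁ τ₂ : List ℕ} (h₁ : Ent P σ a g τ₁) (h₂ : Ent P σ (g + P.q) b τ₂) :
    Ent P σ a b (glue P.n τ₁ τ₂) := by
  have hq := h.q1
  have eg : ∀ v : Fin P.n, (N324.glue P.n τ₁ τ₂).getD v 0 =
      if τ₁.getD v 0 = 0 then τ₂.getD v 0 else τ₁.getD v 0 := fun v => getD_map_range _ v.2
  have key : ∀ v : Fin P.n,
      (zone P σ a g v ∧ (N324.glue P.n τ₁ τ₂).getD v 0 = τ₁.getD v 0 ∧ τ₂.getD v 0 = 0) ∨
      (zone P σ (g + P.q) b v ∧ (N324.glue P.n τ₁ τ₂).getD v 0 = τ₂.getD v 0 ∧ τ₁.getD v 0 = 0) ∨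
      (¬ zone P σ a g v ∧ ¬ zone P σ (g + P.q) b v ∧
        (N324.glue P.n τ₁ τ₂).getD v 0 = res P σ a b v ∧ τ₁.getD v 0 = res P σ a g v ∧
        τ₂.getD v 0 = res P σ (g + P.q) b v) := by
    intro v
    by_cases z1 : zone P σ a g v
    · refine Or.inl ⟨z1, by rw [eg, if_neg (h₁.zin v z1).1], ?_⟩
      rw [h₂.zout v (by unfold zone at z1 ⊢; omega), res, if_neg (by unfold zone at z1; omega)]
    · by_cases z2 : zone P σ (g + P.q) b v
      · have e1 : τ₁.getD v 0 = 0 := by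
          rw [h₁.zout v z1, res, if_neg (by unfold zone at z2; omega)]
        exact Or.inr (Or.inl ⟨z2, by rw [eg, if_pos e1], e1⟩)
      · refine Or.inr (Or.inr ⟨z1, z2, ?_, h₁.zout v z1, h₂.zout v z2⟩)
        rw [eg, h₁.zout v z1, h₂.zout v z2]
        have := h.ne v
        unfold res
        split_ifs <;> first | rfl | omega
  have v₁ := valid_iff.1 h₁.val
  have v₂ := valid_iff.1 h₂.val
  -- position of each scheduled job
  have pos : ∀ v : Fin P.n, (N324.glue P.n τ₁ τ₂).getD v 0 ≠ 0 →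
      ((N324.glue P.n τ₁ τ₂).getD v 0 = τ₁.getD v 0 ∧ P.st (σ v) ≤ g ∧ P.st (τ₁.getD v 0) ≤ g ∨
        g < P.st (σ v)) ∧
      ((N324.glue P.n τ₁ τ₂).getD v 0 = τ₂.getD v 0 ∧ g ≤ P.st (σ v) ∧ g ≤ P.st (τ₂.getD v 0) ∨
        P.st (σ v) < g) ∧
      ((N324.glue P.n τ₁ τ₂).getD v 0 = σ v ∨
        P.st ((N324.glue P.n τ₁ τ₂).getD v 0) + P.q ≤ g ∧ P.st (σ v) < g ∨
        g + P.q ≤ P.st ((N324.glue P.n τ₁ τ₂).getD v 0) ∧ g < P.st (σ v)) := by
    intro v hv
    rcases key v with ⟨z, e1, -⟩ | ⟨z, e1, -⟩ | ⟨-, -, e1, e2, e3⟩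
    · have := h₁.zin v z
      unfold zone at z
      refine ⟨Or.inl ⟨e1, by omega, by omega⟩, Or.inr (by omega), Or.inr (Or.inl ⟨?_, by omega⟩)⟩
      rw [e1]
      omega
    · have := h₂.zin v z
      unfold zone at z
      refine ⟨Or.inr (by omega), Or.inl ⟨e1, by omega, by omega⟩, Or.inr (Or.inr ⟨?_, by omega⟩)⟩
      rw [e1]
      omega
    · have h3 : a ≤ P.st (σ v) + P.q ∧ P.st (σ v) ≤ b := by
        by_contra h3
        rw [e1, res, if_neg h3] at hv
        exact hv rfl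
      rw [res, if_pos h3] at e1
      refine ⟨?_, ?_, Or.inl e1⟩
      · by_cases h4 : g < P.st (σ v)
        · exact Or.inr h4
        · rw [res, if_pos (by omega)] at e2
          exact Or.inl ⟨by rw [e1, e2], by omega, by rw [e2]; omega⟩
      · by_cases h4 : P.st (σ v) < g
        · exact Or.inr h4
        · rw [res, if_pos (by omega)] at e3
          exact Or.inl ⟨by rw [e1, e3], by omega, by rw [e3]; omega⟩
  have mixed : ∀ u v : Fin P.n, u ≠ v → (N324.glue P.n τ₁ τ₂).getD u 0 ≠ 0 →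
      (N324.glue P.n τ₁ τ₂).getD v 0 ≠ 0 → P.st (σ u) < g → g < P.st (σ v) →
      P.ok2 u ((N324.glue P.n τ₁ τ₂).getD u 0) v ((N324.glue P.n τ₁ τ₂).getD v 0) = true ∧
      P.ok2 v ((N324.glue P.n τ₁ τ₂).getD v 0) u ((N324.glue P.n τ₁ τ₂).getD u 0) = true := by
    intro u v huv hu hv h1 h2
    obtain ⟨a1, -, a3⟩ := pos u hu
    obtain ⟨-, b2, b3⟩ := pos v hv
    have a4 : P.st ((N324.glue P.n τ₁ τ₂).getD u 0) ≤ g := by
      rcases a1 with ⟨e, -, a1⟩ | a1
      · rwa [e]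
      · omega
    have b4 : g ≤ P.st ((N324.glue P.n τ₁ τ₂).getD v 0) := by
      rcases b2 with ⟨e, -, b2⟩ | b2
      · rwa [e]
      · omega
    rcases a3 with a3 | a3 | a3
    · rcases b3 with b3 | b3 | b3
      · rw [a3, b3]
        exact ⟨h.ok2 u v huv, h.ok2 v u huv.symm⟩
      · omega
      · exact h.loc u v (by omega) _ _ (by omega)
    · exact h.loc u v (by omega) _ _ (by omega)
    · omega
  refine ⟨valid_iff.2 fun u hu => ⟨?_, fun v hv huv => ?_⟩, fun v hv => ?_, fun v hv => ?_, ?_⟩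
  · obtain ⟨a1 | a1, a2 | a2, -⟩ := pos u hu
    · rw [a1.1] at hu ⊢
      exact (v₁ u hu).1
    · rw [a1.1] at hu ⊢
      exact (v₁ u hu).1
    · rw [a2.1] at hu ⊢
      exact (v₂ u hu).1
    · omega
  · obtain ⟨a1, a2, -⟩ := pos u hu
    obtain ⟨b1, b2, -⟩ := pos v hv
    rcases a1 with a1 | a1
    · rcases b1 with b1 | b1
      · rw [a1.1] at hu ⊢
        rw [b1.1] at hv ⊢
        exact (v₁ u hu).2 v hv huv
      · rcases a2 with a2 | a2
        · rcases b2 with b2 | b2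
          · rw [a2.1] at hu ⊢
            rw [b2.1] at hv ⊢
            exact (v₂ u hu).2 v hv huv
          · omega
        · exact (mixed u v huv hu hv a2 b1).1
    · rcases a2 with a2 | a2
      · rcases b2 with b2 | b2
        · rw [a2.1] at hu ⊢
          rw [b2.1] at hv ⊢
          exact (v₂ u hu).2 v hv huv
        · exact (mixed v u huv.symm hv hu b2 a1).2
      · omega
  · rcases key v with ⟨z, e1, -⟩ | ⟨z, e1, -⟩ | ⟨-, -, e1, -, -⟩
    · have := h₁.zin v z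
      rw [e1]
      omega
    · have := h₂.zin v z
      rw [e1]
      omega
    · unfold zone at hv
      rw [e1, res, if_pos (by omega)]
      exact ⟨h.ne v, hv⟩
  · rcases key v with ⟨z, -, -⟩ | ⟨z, -, -⟩ | ⟨-, -, e1, -, -⟩
    · unfold zone at z hv
      omega
    · unfold zone at z hv
      omega
    · exact e1
  · have h1 := h₁.le
    have h2 := h₂.le
    rw [cost_eq] at h1 h2 ⊢
    have h3 : ∑ v : Fin P.n, P.cst ((N324.glue P.n τ₁ τ₂).getD v 0) +
        ∑ v, P.cst (res P σ a g v) + ∑ v, P.cst (res P σ (g + P.q) b v) =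
        ∑ v : Fin P.n, P.cst (τ₁.getD v 0) + ∑ v : Fin P.n, P.cst (τ₂.getD v 0) +
          ∑ v, P.cst (res P σ a b v) := by
      simp only [← Finset.sum_add_distrib]
      refine Finset.sum_congr rfl fun v _ => ?_
      rcases key v with ⟨z, e1, e2⟩ | ⟨z, e1, e2⟩ | ⟨-, -, e1, e2, e3⟩
      · unfold zone at z
        rw [e1, e2, res, res, res, if_pos (by omega), if_neg (by omega), if_pos (by omega)]
        omega
      · unfold zone at z
        rw [e1, e2, res, res, res, if_neg (by omega), if_pos (by omega), if_pos (by omega)]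
        omega
      · rw [e1, e2, e3]
        omega
    omega

theorem Ref.entry (h : Ref P M Fam σ) {s t : ℤ}
    (hT : Tree Fam P.q (fun v => (P.st (σ v) : ℤ)) s t) : ∀ (a b k : ℕ), s = a - 1 →
    t = b - P.q + 1 → (a ∈ 0 :: P.C.map fun x => P.st x + P.q) → b ∈ top P :: P.C.map P.st →
    (Finset.univ.filter (zone P σ a b)).card ≤ k →
    ∃ τ ∈ (round P (2 * M))^[k + 1] [], Ent P σ a b τ := by
  induction hT with
  | @leaf s t h0 =>
    intro a b k hs ht ha hb _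
    have h1 : ∀ v, ¬ zone P σ a b v := fun v hv => h0 v (by unfold zone at hv; omega)
    obtain ⟨β, hβ, he⟩ := h.leaf h1
    obtain ⟨A, hA, hA'⟩ := h.fam0
    rw [Function.iterate_succ_apply']
    exact h.step ha hb hA (fun v => iff_of_false (hA' v) (h1 v)) (mem_append_left _ hβ) he
  | @node s t c hF h1 h2 _ _ ih1 ih2 =>
    intro a b k hs ht ha hb hk
    have hq := h.q1
    have hc : c ∈ Finset.univ.filter (zone P σ a b) :=
      Finset.mem_filter.2 ⟨Finset.mem_univ _, by unfold zone; omega⟩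
    have hk' := Finset.card_erase_of_mem hc
    obtain ⟨k, rfl⟩ : ∃ k', k = k' + 1 := ⟨k - 1, by
      have := Finset.card_pos.2 ⟨c, hc⟩
      omega⟩
    have sub : ∀ a' b', (∀ v, zone P σ a' b' v → zone P σ a b v ∧ v ≠ c) →
        (Finset.univ.filter (zone P σ a' b')).card ≤ k := fun a' b' h3 =>
      le_trans (Finset.card_le_card (t := (Finset.univ.filter (zone P σ a b)).erase c)
        fun v hv => Finset.mem_erase.2 ⟨(h3 v (Finset.mem_filter.1 hv).2).2,
          Finset.mem_filter.2 ⟨Finset.mem_univ _, (h3 v (Finset.mem_filter.1 hv).2).1⟩⟩) (by omega)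
    obtain ⟨τ₁, t₁, e₁⟩ := ih1 a (P.st (σ c)) k hs rfl ha
      (mem_cons_of_mem _ (mem_map.2 ⟨_, h.mem c, rfl⟩)) (sub _ _ fun v hv => ⟨by
        unfold zone at hv ⊢
        omega, by
        rintro rfl
        unfold zone at hv
        omega⟩)
    obtain ⟨τ₂, t₂, e₂⟩ := ih2 (P.st (σ c) + P.q) b k (by push_cast; ring) ht
      (mem_cons_of_mem _ (mem_map.2 ⟨_, h.mem c, rfl⟩)) hb (sub _ _ fun v hv => ⟨by
        unfold zone at hv ⊢
        omega, by
        rintro rfl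
        unfold zone at hv
        omega⟩)
    obtain ⟨A, hA, hA'⟩ := h.fam _ hF
    rw [Function.iterate_succ_apply']
    refine h.step ha hb hA (fun v => (hA' v).trans ?_) (mem_append_right _
      (mem_flatMap.2 ⟨τ₁, t₁, mem_map.2 ⟨τ₂, t₂, rfl⟩⟩)) (h.glue (by omega) (by omega) e₁ e₂)
    simp only [Set.mem_ofPred_eq, zone]
    omega

theorem st_le_top {x : ℕ} (hx : x ∈ P.C) : P.st x + P.q ≤ top P :=
  Nat.add_le_add_right (List.le_sum_of_mem (mem_map.2 ⟨x, hx, rfl⟩)) _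

/-- Soundness. -/
theorem solve_sound {M : ℕ} {τ : List ℕ} (h : τ ∈ solve P M) : τ.length = P.n ∧
    valid P τ = true ∧ ∀ v : Fin P.n, τ.getD v 0 ≠ 0 ∧ τ.getD v 0 ∈ P.C := by
  obtain ⟨h1, h2⟩ := mem_filter.1 (mem_of_best h).1
  have h3 := shape_table P M _ τ h1
  simp only [Bool.and_eq_true, all_eq_true, mem_range, Bool.not_eq_true',
    decide_eq_false_iff_not] at h2
  exact ⟨h3.1, h2.1, fun v => ⟨h2.2 v v.2, (getD_mem h3 v).resolve_left (h2.2 v v.2)⟩⟩

/-- Completeness. -/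
theorem Ref.solve (h : Ref P M Fam σ)
    (hT : Tree Fam P.q (fun v => (P.st (σ v) : ℤ)) (-1) ((top P : ℤ) - P.q + 1)) :
    ∃ τ, solve P (2 * M) = [τ] ∧ cost P τ ≤ ∑ v, P.cst (σ v) := by
  obtain ⟨τ, h1, h2⟩ := h.entry hT 0 (top P) P.n (by simp) rfl mem_cons_self mem_cons_self
    ((Finset.card_filter_le _ _).trans (by simp))
  have hz : ∀ v, zone P σ 0 (top P) v := fun v => ⟨Nat.zero_le _, st_le_top (h.mem v)⟩
  have h3 : τ ∈ ((round P (2 * M))^[P.n + 1] []).filter fun τ =>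
      valid P τ && (range P.n).all fun v => !decide (τ.getD v 0 = 0) := by
    refine mem_filter.2 ⟨h1, ?_⟩
    simp only [Bool.and_eq_true, all_eq_true, mem_range, Bool.not_eq_true',
      decide_eq_false_iff_not]
    exact ⟨h2.val, fun v hv => (h2.zin ⟨v, hv⟩ (hz _)).1⟩
  obtain ⟨ρ, hρ⟩ := best_ne (cost P) h3
  refine ⟨ρ, hρ, ((mem_of_best (hρ ▸ mem_singleton.2 rfl)).2 τ h3).trans (h2.le.trans
    (le_of_eq (Finset.sum_congr rfl fun v _ => ?_)))⟩
  have := hz v
  unfold zone at this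
  rw [res, if_pos (by omega)]

end Vale.Agent.N324
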