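import Vale.Agent.N324.EnvOK
import Vale.Agent.N324.EngOK

/-!
Correctness of the algorithms.
-/

namespace Vale.Agent.N324

open List Vale.Agent.Lib.PolyTime Vale.Agent.P324

variable {m L : ℕ} {I : Inst} {d s μ : Fin I.G.n → ℕ}

theorem ok1_iff (v : Fin I.G.n) (x : ℕ) : (mkPar m L I.G.n (dat I d)).ok1 v x = true ↔
    ((I.G.arc v v = false ∧ I.r v ≤ (x - 1) / m) ∧ (x - 1) / m + I.p ≤ d v) ∧
      ∀ e ∈ I.down, e.1 = (x - 1) % m → (x - 1) / m + I.p ≤ e.2.1 ∨ e.2.2 ≤ (x - 1) / m := by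
  have e1 : (dat I d).r.getD v 0 = I.r v := getD_ofFn _ _ _
  have e2 : (dat I d).d.getD v 0 = d v := getD_ofFn _ _ _
  simp only [mkPar, arcW_dat, e1, e2, Bool.and_eq_true, Bool.not_eq_true', decide_eq_true_eq,
    all_eq_true, Bool.or_eq_true, decide_eq_false_iff_not]
  refine and_congr Iff.rfl (forall₂_congr fun e _ => ?_)
  rw [or_assoc, imp_iff_not_or]
  rfl

theorem ok2_iff (u v : Fin I.G.n) (x y : ℕ) : (mkPar m L I.G.n (dat I d)).ok2 u x v y = true ↔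
    (I.G.arc u v = true → (x - 1) / m + I.p + I.lag u v * I.p +
      (if (x - 1) % m = (y - 1) % m then 0 else I.com u v) ≤ (y - 1) / m) ∧
      ((x - 1) % m = (y - 1) % m →
        (x - 1) / m + I.p ≤ (y - 1) / m ∨ (y - 1) / m + I.p ≤ (x - 1) / m) := by
  have e1 : ((dat I d).lag.getD u []).getD v 0 = I.lag u v := by
    rw [show (dat I d).lag.getD u [] = ofFn (I.lag u) from getD_ofFn _ _ _, getD_ofFn]
  have e2 : ((dat I d).com.getD u []).getD v 0 = I.com u v := by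
    rw [show (dat I d).com.getD u [] = ofFn (I.com u) from getD_ofFn _ _ _, getD_ofFn]
  simp only [mkPar, arcW_dat, e1, e2, Bool.and_eq_true, Bool.not_eq_true', decide_eq_true_eq,
    Bool.or_eq_true, decide_eq_false_iff_not]
  rw [or_assoc, imp_iff_not_or, imp_iff_not_or, Bool.not_eq_true]
  rfl

theorem solveD_eq : solveD m L (dat I d) =
    solve (mkPar m L I.G.n (dat I d)) (2 * (2 * (L + 1 + 1) * m)) := by
  rw [solveD, nW_dat]

theorem solveD_sound (hm : 1 ≤ m) {τ : List ℕ} (h : τ ∈ solveD m L (dat I d)) :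
    τ.length = I.G.n ∧ NS m I d (fun v => (τ.getD v 0 - 1) / m) fun v => (τ.getD v 0 - 1) % m := by
  rw [solveD_eq] at h
  obtain ⟨h1, h2, h3⟩ := solve_sound h
  have h4 := valid_iff.1 h2
  have a1 := fun v : Fin I.G.n => (ok1_iff v _).1 (h4 v (h3 v).1).1
  have a2 := fun (u v : Fin I.G.n) (huv : u ≠ v) =>
    (ok2_iff u v _ _).1 ((h4 u (h3 u).1).2 v (h3 v).1 huv)
  refine ⟨h1, fun v => Nat.mod_lt _ hm, fun v => (a1 v).1.1.2, fun v => (a1 v).1.2,
    fun u v huv => (a2 u v ?_).1 huv, fun u v huv => (a2 u v huv).2, fun v => (a1 v).2⟩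
  rintro rfl
  rw [(a1 u).1.1.1] at huv
  exact Bool.false_ne_true huv

theorem term_mem {n : ℕ} {F : List (List ℕ)} {k : ℕ} {X : Set (Fin n)}
    (h : Term (fun X => ∃ A ∈ F, ∀ v : Fin n, v.val ∈ A ↔ v ∈ X) k X) :
    ∃ A ∈ grow^[k] F, ∀ v : Fin n, v.val ∈ A ↔ v ∈ X := by
  have key : ∀ {k : ℕ} {A B C : List ℕ}, A ∈ grow^[k] F → B ∈ grow^[k] F → C ∈ ops A B →
      C ∈ grow^[k + 1] F := fun hA hB hC => by
    rw [Function.iterate_succ_apply']
    exact mem_append_right _ (mem_flatMap.2 ⟨_, hA, mem_flatMap.2 ⟨_, hB, hC⟩⟩)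
  induction h with
  | atom h => exact h
  | succ _ ih =>
    obtain ⟨A, hA, e⟩ := ih
    rw [Function.iterate_succ_apply']
    exact ⟨A, mem_append_left _ hA, e⟩
  | union _ _ ih ih' =>
    obtain ⟨A, hA, e⟩ := ih
    obtain ⟨B, hB, e'⟩ := ih'
    exact ⟨_, key hA hB mem_cons_self, fun v => by simp [e, e']⟩
  | inter _ _ ih ih' =>
    obtain ⟨A, hA, e⟩ := ih
    obtain ⟨B, hB, e'⟩ := ih'
    exact ⟨_, key hA hB (mem_cons_of_mem _ mem_cons_self), fun v => by simp [e, e']⟩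
  | sdiff _ _ ih ih' =>
    obtain ⟨A, hA, e⟩ := ih
    obtain ⟨B, hB, e'⟩ := ih'
    exact ⟨_, key hA hB (mem_cons_of_mem _ (mem_cons_of_mem _ mem_cons_self)),
      fun v => by simp [e, e']⟩

theorem mem_cand {t : ℕ} (h : Cand L I t) : t ∈ cand L I.G.n (dat I d) := by
  obtain ⟨a, k, j, h1, h2, h3, rfl⟩ := h
  refine mem_flatMap.2 ⟨a, ?_, mem_flatMap.2 ⟨k, mem_range.2 (by omega),
    mem_map.2 ⟨j, mem_range.2 (by omega), rfl⟩⟩⟩
  rcases h1 with ⟨v, rfl⟩ | ⟨e, he, rfl⟩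
  · exact mem_append_left _ (mem_ofFn.2 ⟨v, rfl⟩)
  · exact mem_append_right _ (mem_map.2 ⟨e, he, rfl⟩)

theorem code_div {t i : ℕ} (hi : i < m) : (t * m + i + 1 - 1) / m = t := by
  rw [Nat.add_sub_cancel, add_comm, Nat.add_mul_div_right _ _ (by omega), Nat.div_eq_of_lt hi,
    zero_add]

theorem code_mod {t i : ℕ} (hi : i < m) : (t * m + i + 1 - 1) % m = i := by
  rw [Nat.add_sub_cancel, add_comm, Nat.add_mul_mod_self_right, Nat.mod_eq_of_lt hi]

theorem NS.ref (h : NS m I d s μ) (hp : 1 ≤ I.p) (hL : ∀ u v, I.lag u v ≤ L ∧ I.com u v ≤ 1)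
    (hc : ∀ v, Cand L I (s v)) :
    Ref (mkPar m L I.G.n (dat I d)) (2 * (L + 1 + 1) * m)
      (Term (fun X => ∃ A ∈ atomsD I.G.n (dat I d), ∀ v : Fin I.G.n, v.val ∈ A ↔ v ∈ X)
        (2 * (L + 1 + 1) * m + 13)) fun v => s v * m + μ v + 1 := by
  have e1 : ∀ v, (s v * m + μ v + 1 - 1) / m = s v := fun v => code_div (h.lt v)
  have e2 : ∀ v, (s v * m + μ v + 1 - 1) % m = μ v := fun v => code_mod (h.lt v)
  refine ⟨fun v => Nat.succ_ne_zero _, fun v => mem_flatMap.2 ⟨s v, mem_cand (hc v),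
    mem_map.2 ⟨μ v, mem_range.2 (h.lt v), rfl⟩⟩, fun (v : Fin I.G.n) => (ok1_iff v _).2 ?_,
    fun (u v : Fin I.G.n) huv => (ok2_iff u v _ _).2 ?_,
    fun (u v : Fin I.G.n) huv x y hxy => ?_, fun f => ?_, ?_,
    fun X hX => term_mem hX, ?_⟩
  · rw [e1, e2]
    refine ⟨⟨⟨?_, h.rel v⟩, h.dl v⟩, h.down v⟩
    by_contra h1
    have := h.arc v v (by simpa using h1)
    omega
  · rw [e1, e1, e2, e2]
    exact ⟨h.arc u v, h.mach u v huv⟩
  · change (s u * m + μ u + 1 - 1) / m < (s v * m + μ v + 1 - 1) / m at huv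
    change (x - 1) / m + (L + 1 + 1) * I.p ≤ (y - 1) / m at hxy
    rw [e1, e1] at huv
    rw [Nat.succ_mul, Nat.succ_mul] at hxy
    have := Nat.mul_le_mul_right I.p (hL u v).1
    have := (hL u v).2
    refine ⟨(ok2_iff u v _ _).2 ⟨fun _ => by split_ifs <;> omega, fun _ => Or.inl (by omega)⟩,
      (ok2_iff v u _ _).2 ⟨fun h1 => ?_, fun _ => Or.inr (by omega)⟩⟩
    have := h.arc v u h1
    omega
  · refine le_trans (le_of_eq (congrArg Finset.card (Finset.filter_congr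
      fun (v : Fin I.G.n) _ => ?_))) (h.card hp (L + 1) f)
    change (f - ((L + 1 + 1) * I.p : ℕ) < ((s v * m + μ v + 1 - 1) / m : ℕ) ∧
      (((s v * m + μ v + 1 - 1) / m : ℕ) : ℤ) < f + ((L + 1 + 1) * I.p : ℕ)) ↔ _
    rw [e1]
  · exact Nat.mul_le_mul (Nat.le_add_left 1 (L + 1)) hp
  · obtain ⟨A, hA, e⟩ := term_mem (Term.mono (k' := 2 * (L + 1 + 1) * m + 13) (Term.atom
      (At := fun X : Set (Fin I.G.n) => ∃ A ∈ atomsD I.G.n (dat I d),
        ∀ v : Fin I.G.n, v.val ∈ A ↔ v ∈ X) (A := ∅)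
      ⟨[], mem_append_left _ mem_cons_self, fun v => by simp⟩) (Nat.zero_le _))
    exact ⟨A, hA, fun v hv => (e v).1 hv⟩

theorem solveD_complete (h : NS m I d s μ) (hp : 1 ≤ I.p) (hL : ∀ u v, I.lag u v ≤ L ∧ I.com u v ≤ 1) :
    ∃ τ, solveD m L (dat I d) = [τ] ∧ ∑ v : Fin I.G.n, (τ.getD v 0 - 1) / m ≤ ∑ v, s v := by
  obtain ⟨s', h1, h2, h3⟩ := h.left hp hL
  have h4 := h1.ref hp hL h3
  obtain ⟨σ, ⟨π, e, h5⟩, hT⟩ := exists_tree (τ := fun v => (s' v : ℤ)) (s := -1)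
    (t := (top (mkPar m L I.G.n (dat I d)) : ℤ) - (mkPar m L I.G.n (dat I d)).q + 1)
    (env_good h1 hp hL) ⟨Equiv.refl _, fun _ => rfl, h1⟩ fun v => ⟨by omega, by
      have h6 := st_le_top (h4.mem v)
      have h7 : (mkPar m L I.G.n (dat I d)).st (s' v * m + μ v + 1) = s' v := code_div (h1.lt v)
      rw [h7] at h6
      omega⟩
  have h6 := h5.ref hp hL fun v => h3 (π v)
  have e1 : σ = fun v => ((mkPar m L I.G.n (dat I d)).st (s' (π v) * m + μ (π v) + 1) : ℤ) := by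
    funext v
    rw [e]
    exact congrArg Nat.cast (code_div (h1.lt _)).symm
  rw [e1] at hT
  obtain ⟨τ, h7, h8⟩ := h6.solve hT
  refine ⟨τ, solveD_eq.trans h7, ?_⟩
  rw [cost_eq] at h8
  refine le_trans h8 (le_trans (le_of_eq ?_) (Finset.sum_le_sum fun v _ => h2 v))
  rw [← Equiv.sum_comp π s']
  exact Finset.sum_congr rfl fun v _ => code_div (h1.lt _)

theorem outOf_eq {τ : List ℕ} (h : τ.length = I.G.n) : outOf m [τ] =
    some (ofFn fun v : Fin I.G.n => ((τ.getD v 0 - 1) / m, (τ.getD v 0 - 1) % m)) := by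
  simp only [outOf, map_cons, map_nil, head?_cons, Option.some.injEq]
  refine ext_getElem (by simp [h]) fun i h1 h2 => ?_
  have h3 : i < τ.length := by simpa using h1
  simp [h3]

theorem best_cases {β : Type*} (w : β → ℕ) (l : List β) : best w l = [] ∧ l = [] ∨
    ∃ x, best w l = [x] := by
  cases l with
  | nil => exact Or.inl ⟨rfl, rfl⟩
  | cons y l => exact Or.inr (best_ne w mem_cons_self)

theorem solveD_cases (D : Dat) : solveD m L D = [] ∨ ∃ τ, solveD m L D = [τ] :=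
  (best_cases _ _).imp And.left id

theorem floor_dl {s : Fin I.G.n → ℝ} {μ : Fin I.G.n → Fin m} (h : Sched m I s μ)
    (h' : Late I s 0) (v : Fin I.G.n) : ⌊s v⌋₊ + I.p ≤ I.d v := by
  have h1 := h.floor_le v
  have h2 := h' v
  have h3 : ((⌊s v⌋₊ + I.p : ℕ) : ℝ) ≤ I.d v := by
    push_cast
    linarith
  exact_mod_cast h3

/-- The sum of the completion times under deadlines. -/
theorem sum_spec (hm : 1 ≤ m) (hp : 1 ≤ I.p) (hL : ∀ u v, I.lag u v ≤ L ∧ I.com u v ≤ 1) :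
    (outOf m (solveD m L (dat I I.d)) = none ∧ ∀ s μ, Sched m I s μ → ¬ Late I s 0) ∨
    ∃ (s : Fin I.G.n → ℕ) (μ : Fin I.G.n → Fin m),
      outOf m (solveD m L (dat I I.d)) = some (ofFn fun v => (s v, (μ v).val)) ∧
      Sched m I (fun v => s v) μ ∧ Late I (fun v => s v) 0 ∧
      ∀ s' μ', Sched m I s' μ' → Late I s' 0 → ∑ v, ((s v : ℝ) + I.p) ≤ ∑ v, (s' v + I.p) := by
  rcases solveD_cases (m := m) (L := L) (dat I I.d) with h | ⟨τ, h⟩
  · refine Or.inl ⟨by rw [h]; rfl, fun s μ h1 h2 => ?_⟩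
    obtain ⟨τ, h3, -⟩ := solveD_complete (h1.floor (floor_dl h1 h2)) hp hL
    rw [h] at h3
    exact cons_ne_nil _ _ h3.symm
  · obtain ⟨h1, h2⟩ := solveD_sound hm (h ▸ mem_singleton.2 rfl : τ ∈ solveD m L (dat I I.d))
    refine Or.inr ⟨_, _, by rw [h, outOf_eq h1], h2.sched, fun v => ?_, fun s' μ' h3 h4 => ?_⟩
    · have h3 : (((τ.getD v 0 - 1) / m + I.p : ℕ) : ℝ) ≤ I.d v := by exact_mod_cast h2.dl v
      rw [Nat.cast_add] at h3
      linarith
    · obtain ⟨ρ, h5, h6⟩ := solveD_complete (h3.floor (floor_dl h3 h4)) hp hL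
      rw [h] at h5
      obtain rfl : τ = ρ := by simpa using h5
      have h7 : ((∑ v : Fin I.G.n, (τ.getD v 0 - 1) / m : ℕ) : ℝ) ≤ (∑ v, ⌊s' v⌋₊ : ℕ) := by
        exact_mod_cast h6
      rw [Nat.cast_sum, Nat.cast_sum] at h7
      rw [Finset.sum_add_distrib, Finset.sum_add_distrib]
      have h8 : ∑ v, (⌊s' v⌋₊ : ℝ) ≤ ∑ v, s' v := Finset.sum_le_sum fun v _ => h3.floor_le v
      linarith

theorem setD_dat (c : ℕ) (j : Fin I.G.n) :
    setD (dat I d) c j = dat I fun v => d v + c + I.p - d j := by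
  have e : (dat I d).d.getD j 0 = d j := getD_ofFn _ _ _
  unfold setD
  rw [e]
  simp only [dat, Dat.p, Dat.r, Dat.d, Dat.lag, Dat.com, Dat.down, map_ofFn]
  rfl

theorem lateC_sound (hm : 1 ≤ m) {τ : List ℕ} (h : τ ∈ lateC m L (dat I d)) :
    τ.length = I.G.n ∧ ∃ d', NS m I d' (fun v => (τ.getD v 0 - 1) / m)
      fun v => (τ.getD v 0 - 1) % m := by
  rcases mem_append.1 h with h | h
  · exact (solveD_sound hm h).imp id fun h => ⟨_, h⟩
  · obtain ⟨c, -, h⟩ := mem_flatMap.1 h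
    obtain ⟨j, hj, h⟩ := mem_flatMap.1 h
    rw [mem_range, nW_dat] at hj
    rw [show setD (dat I d) c j = _ from setD_dat c ⟨j, hj⟩] at h
    exact (solveD_sound hm h).imp id fun h => ⟨_, h⟩

theorem lat_spec (τ : List ℕ) (w : Fin I.G.n) :
    (∃ v : Fin I.G.n, lat m (dat I d) τ + d v = (τ.getD v 0 - 1) / m + ∑ u, d u) ∧
      ∀ v : Fin I.G.n, (τ.getD v 0 - 1) / m + ∑ u, d u ≤ lat m (dat I d) τ + d v := by
  have e : ∀ v : Fin I.G.n, (dat I d).d.getD v 0 = d v := fun v => getD_ofFn _ _ _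
  have e' : (dat I d).d.sum = ∑ u, d u := List.sum_ofFn
  have le : ∀ v, d v ≤ ∑ u, d u := fun v =>
    Finset.single_le_sum (fun _ _ => Nat.zero_le _) (Finset.mem_univ v)
  have hm : ∀ v : Fin I.G.n, (τ.getD v 0 - 1) / m + (dat I d).d.sum - (dat I d).d.getD v 0 ∈
      (range (nW (dat I d).w)).map fun v =>
        (τ.getD v 0 - 1) / m + (dat I d).d.sum - (dat I d).d.getD v 0 := fun v =>
    mem_map.2 ⟨v, mem_range.2 (by rw [nW_dat]; exact v.2), rfl⟩
  obtain ⟨h1, h2⟩ := mx_spec (hm w)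
  constructor
  · obtain ⟨v, hv, h3⟩ := mem_map.1 h1
    rw [mem_range, nW_dat] at hv
    refine ⟨⟨v, hv⟩, ?_⟩
    have h4 := e ⟨v, hv⟩
    have h5 := le ⟨v, hv⟩
    unfold lat
    simp only at h4 ⊢
    rw [← h3]
    generalize (τ.getD v 0 - 1) / m = z
    omega
  · intro v
    have h3 := h2 _ (hm v)
    have h4 := e v
    have h5 := le v
    unfold lat
    omega

theorem lateC_complete (hm : 1 ≤ m) (hp : 1 ≤ I.p) (hL : ∀ u v, I.lag u v ≤ L ∧ I.com u v ≤ 1)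
    {s : Fin I.G.n → ℝ} {μ : Fin I.G.n → Fin m} (h : Sched m I s μ) :
    ∃ ρ ∈ lateC m L (dat I I.d), ∀ x, Late I s x →
      Late I (fun v => ((ρ.getD v 0 - 1) / m : ℕ)) x := by
  obtain ⟨s', h1, h2, h3⟩ := (h.floor (d := fun v => ⌊s v⌋₊ + I.p) fun _ => le_rfl).left hp hL
  by_cases h0 : (Finset.univ : Finset (Fin I.G.n)).Nonempty
  · obtain ⟨w, -, hw⟩ := Finset.exists_max_image _ (fun v => (s' v : ℤ) - I.d v) h0
    obtain ⟨ρ, h4, -⟩ := solveD_complete (d := fun v => I.d v + s' w + I.p - I.d w)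
      ⟨h1.lt, h1.rel, fun v => by have := hw v (Finset.mem_univ v); omega, h1.arc, h1.mach,
        h1.down⟩ hp hL
    have h5 : ρ ∈ solveD m L (dat I fun v => I.d v + s' w + I.p - I.d w) :=
      h4 ▸ mem_singleton.2 rfl
    refine ⟨ρ, mem_append_right _ (mem_flatMap.2 ⟨s' w, by rw [nW_dat]; exact mem_cand (h3 w),
      mem_flatMap.2 ⟨w, mem_range.2 (by rw [nW_dat]; exact w.2), by rw [setD_dat]; exact h5⟩⟩),
      fun x hx v => ?_⟩
    have h6 := (solveD_sound hm h5).2.dl v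
    have h7 : (ρ.getD v 0 - 1) / m + I.d w ≤ I.d v + ⌊s w⌋₊ := by
      have := h2 w
      generalize (ρ.getD v 0 - 1) / m = z at h6 ⊢
      omega
    have h8 : (((ρ.getD v 0 - 1) / m : ℕ) : ℝ) + I.d w ≤ I.d v + ⌊s w⌋₊ := by exact_mod_cast h7
    have h9 := hx w
    have h10 := h.floor_le w
    linarith
  · obtain ⟨ρ, h4, -⟩ := solveD_complete (d := I.d) ⟨h1.lt, h1.rel,
      fun v => absurd ⟨v, Finset.mem_univ v⟩ h0, h1.arc, h1.mach, h1.down⟩ hp hL
    exact ⟨ρ, mem_append_left _ (h4 ▸ mem_singleton.2 rfl),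
      fun _ _ v => absurd ⟨v, Finset.mem_univ v⟩ h0⟩

/-- The maximum lateness. -/
theorem late_spec (hm : 1 ≤ m) (hp : 1 ≤ I.p) (hL : ∀ u v, I.lag u v ≤ L ∧ I.com u v ≤ 1) :
    (outOf m (lateD m L (dat I I.d)) = none ∧ ∀ s μ, ¬ Sched m I s μ) ∨
    ∃ (s : Fin I.G.n → ℕ) (μ : Fin I.G.n → Fin m),
      outOf m (lateD m L (dat I I.d)) = some (ofFn fun v => (s v, (μ v).val)) ∧
      Sched m I (fun v => s v) μ ∧
      ∀ s' μ' x, Sched m I s' μ' → Late I s' x → Late I (fun v => s v) x := by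
  rcases best_cases (lat m (dat I I.d)) (lateC m L (dat I I.d)) with ⟨h, h'⟩ | ⟨τ, h⟩
  · refine Or.inl ⟨by rw [lateD, h]; rfl, fun s μ h1 => ?_⟩
    obtain ⟨ρ, h2, -⟩ := lateC_complete hm hp hL h1
    rw [h'] at h2
    exact not_mem_nil h2
  · obtain ⟨h1, h2⟩ := mem_of_best (h ▸ mem_singleton.2 rfl :
      τ ∈ best (lat m (dat I I.d)) (lateC m L (dat I I.d)))
    obtain ⟨h3, d', h4⟩ := lateC_sound hm h1
    refine Or.inr ⟨_, _, by rw [lateD, h, outOf_eq h3], h4.sched, fun s' μ' x h5 h6 v => ?_⟩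
    obtain ⟨ρ, h7, h8⟩ := lateC_complete hm hp hL h5
    have h9 := h2 ρ h7
    obtain ⟨u, hu⟩ := (lat_spec (m := m) (d := I.d) ρ v).1
    have h10 := (lat_spec (m := m) (d := I.d) τ v).2 v
    have h11 : (τ.getD v 0 - 1) / m + I.d u ≤ (ρ.getD u 0 - 1) / m + I.d v := by omega
    have h12 : (((τ.getD v 0 - 1) / m : ℕ) : ℝ) + I.d u ≤ ((ρ.getD u 0 - 1) / m : ℕ) + I.d v := by
      exact_mod_cast h11
    have h13 := h8 x h6 u
    beta_reduce at h13 ⊢
    linarith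

/-! ### Codes -/

theorem pc_eq (x y : List Bool) : pc x y = pr x y := by
  induction x with
  | nil => rfl
  | cons b x ih => rw [pr, ← ih]; rfl

theorem lst_eq {α : Type} [Enc α] (f : α → List Bool) (hf : ∀ a, f a = enc a) (l : List α) :
    lst f l = enc l := by
  induction l with
  | nil => rfl
  | cons a l ih => rw [enc_cons, ← ih, ← hf, ← pc_eq]; rfl

theorem code_eq (I : Inst) : I.code = enc (dat I I.d) := by
  unfold Inst.code
  rw [lst_eq Nat.bits fun _ => rfl, lst_eq Nat.bits fun _ => rfl,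
    lst_eq (lst Nat.bits) (lst_eq Nat.bits fun _ => rfl),
    lst_eq (lst Nat.bits) (lst_eq Nat.bits fun _ => rfl),
    lst_eq (fun e : ℕ × ℕ × ℕ => pc e.1.bits (pc e.2.1.bits e.2.2.bits))
      fun _ => by rw [pc_eq, pc_eq]; rfl]
  simp only [pc_eq]
  rfl

theorem outCode_eq (o : Option (List (ℕ × ℕ))) : outCode o = enc o := by
  cases o with
  | none => rfl
  | some l =>
    rw [outCode, lst_eq (fun e : ℕ × ℕ => pc e.1.bits e.2.bits) fun _ => pc_eq _ _, enc_some]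

theorem exists_machine {f : Dat → Option (List (ℕ × ℕ))} (hf : PT ∅ f) :
    ∃ M : Turing.TM2ComputableInPolyTime Inst.code outCode fun I => f (dat I I.d),
      ∀ k, Finite (M.tm.Γ k) := by
  obtain ⟨g, hg, h⟩ := hf
  exact exists_tm2_of_polyTimeFun _ _ _ g (polyTimeFun_iff.2 hg)
    fun I => by rw [code_eq, h, outCode_eq]

end Vale.Agent.N324
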