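import Mathlib.Data.Fintype.Basic
import Mathlib.Data.Finset.Card
import Mathlib.Data.Finset.Max
import Mathlib.Algebra.BigOperators.Group.Finset.Basic
import Mathlib.Data.Int.LeastGreatest
import Mathlib.Algebra.Order.BigOperators.Group.Finset
import Mathlib.Algebra.Order.Group.Abs
import Mathlib.Logic.Equiv.Basic
import Mathlib.Tactic.Linarith
import Mathlib.Tactic.Ring

/-!
Schedules with windows and bounded delays: the abstract setting (a class of schedules closed under
safe swaps), schedules that are optimal from the last slot backwards, and the thick cut lemma.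
-/

namespace Vale.Agent.N324

open Finset

/-- The data of the abstract setting. -/
structure Env (V : Type*) where
  /-- precedence -/
  lt : V → V → Prop
  /-- rank -/
  r : V → ℤ
  /-- earliest start -/
  lo : V → ℤ
  /-- latest start -/
  hi : V → ℤ
  /-- bound on the delays -/
  q : ℤ
  /-- bound on the number of jobs in a window -/
  M : ℕ
  /-- admissible schedules -/
  Ok : (V → ℤ) → Prop
  /-- atomic sets -/
  At : Set V → Prop

variable {V : Type*}

/-- The jobs `x` and `y` can be exchanged. -/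
def Safe (E : Env V) (σ : V → ℤ) (x y : V) : Prop :=
  (∀ z, E.lt x z → σ y + E.q ≤ σ z) ∧ (∀ z, E.lt z y → σ z + E.q ≤ σ x) ∧ σ y ≤ E.hi x ∧
    E.lo y ≤ σ x

/-- The axioms of the abstract setting. -/
structure Env.Good [Fintype V] [DecidableEq V] (E : Env V) : Prop where
  tr : ∀ a b c, E.lt a b → E.lt b c → E.lt a c
  inj : ∀ a b, E.r a = E.r b → a = b
  rmono : ∀ a b, E.lt a b → E.r a < E.r b
  q1 : 1 ≤ E.q
  lomono : ∀ a b, E.lt a b → E.lo a ≤ E.lo b
  himono : ∀ a b, E.lt a b → E.hi a ≤ E.hi b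
  mono : ∀ σ, E.Ok σ → ∀ a b, E.lt a b → σ a < σ b
  lo_le : ∀ σ, E.Ok σ → ∀ v, E.lo v ≤ σ v
  le_hi : ∀ σ, E.Ok σ → ∀ v, σ v ≤ E.hi v
  swap : ∀ σ, E.Ok σ → ∀ x y, σ x < σ y → Safe E σ x y → E.Ok fun v => σ (Equiv.swap x y v)
  card : ∀ σ, E.Ok σ → ∀ f, (univ.filter fun z => f - E.q < σ z ∧ σ z < f + E.q).card ≤ E.M
  a0 : E.At ∅
  a1 : E.At Set.univ
  a2 : ∀ v, E.At {v}
  a3 : ∀ v, E.At {u | E.lt u v}
  a4 : ∀ v, E.At {u | E.lt v u}
  a5 : ∀ v, E.At {u | E.r u < E.r v}
  a6 : ∀ v, E.At {u | E.r v < E.r u}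
  a7 : ∀ g, E.At {u | E.hi u < g}
  a8 : ∀ g, E.At {u | g < E.lo u}

/-- Reversal of time. -/
def Env.rev (E : Env V) : Env V where
  lt a b := E.lt b a
  r v := - E.r v
  lo v := - E.hi v
  hi v := - E.lo v
  q := E.q
  M := E.M
  Ok σ := E.Ok fun v => - σ v
  At := E.At

theorem Env.rev_rev (E : Env V) : E.rev.rev = E := by
  cases E
  simp [Env.rev]

theorem Env.Good.rev [Fintype V] [DecidableEq V] {E : Env V} (h : E.Good) : E.rev.Good where
  tr a b c h1 h2 := h.tr c b a h2 h1
  inj a b e := h.inj a b (by simp only [Env.rev] at e; omega)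
  rmono a b h1 := by have := h.rmono b a h1; simp only [Env.rev]; omega
  q1 := h.q1
  lomono a b h1 := by have := h.himono b a h1; simp only [Env.rev]; omega
  himono a b h1 := by have := h.lomono b a h1; simp only [Env.rev]; omega
  mono σ hσ a b h1 := by have := h.mono _ hσ b a h1; omega
  lo_le σ hσ v := by have := h.le_hi _ hσ v; simp only [Env.rev]; omega
  le_hi σ hσ v := by have := h.lo_le _ hσ v; simp only [Env.rev]; omega
  swap σ hσ x y h1 h2 := by
    obtain ⟨h3, h4, h5, h6⟩ := h2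
    simp only [Env.rev] at h3 h4 h5 h6
    have := h.swap _ hσ y x (by omega) ⟨fun z hz => by have := h4 z hz; beta_reduce; omega,
      fun z hz => by have := h3 z hz; beta_reduce; omega, by beta_reduce; omega,
      by beta_reduce; omega⟩
    rw [Equiv.swap_comm] at this
    exact this
  card σ hσ f := by
    refine le_trans (le_of_eq ?_) (h.card _ hσ (-f))
    refine congrArg _ (filter_congr fun v _ => ?_)
    simp only [Env.rev]
    omega
  a0 := h.a0
  a1 := h.a1
  a2 := h.a2
  a3 := h.a4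
  a4 := h.a3
  a5 v := by
    have := h.a6 v
    simpa [Env.rev] using this
  a6 v := by
    have := h.a5 v
    simpa [Env.rev] using this
  a7 g := by
    have := h.a8 (-g)
    have e : {u | E.rev.hi u < g} = {u | -g < E.lo u} := by
      ext u
      simp only [Env.rev, Set.mem_ofPred_eq]
      omega
    rw [e]
    exact this
  a8 g := by
    have := h.a7 (-g)
    have e : {u | g < E.rev.lo u} = {u | E.hi u < -g} := by
      ext u
      simp only [Env.rev, Set.mem_ofPred_eq]
      omega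
    rw [e]
    exact this

/-- `σ` is admissible, `X` is the set of jobs strictly between `s` and `t`, and `σ` agrees with `τ`
outside `X`. -/
structure Sch (E : Env V) (X : Set V) (s t : ℤ) (τ σ : V → ℤ) : Prop where
  ok : E.Ok σ
  mem : ∀ v, v ∈ X ↔ s < σ v ∧ σ v < t
  out : ∀ v, v ∉ X → σ v = τ v

variable {E : Env V} {X : Set V} {s t : ℤ} {τ σ ρ : V → ℤ}

theorem Sch.refl (h : Sch E X s t τ σ) : Sch E X s t σ σ := ⟨h.ok, h.mem, fun _ _ => rfl⟩

theorem Sch.trans (h : Sch E X s t τ σ) (h' : Sch E X s t σ ρ) : Sch E X s t τ ρ :=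
  ⟨h'.ok, h'.mem, fun v hv => (h'.out v hv).trans (h.out v hv)⟩

theorem Sch.toRev (h : Sch E X s t τ σ) :
    Sch E.rev X (-t) (-s) (fun v => - τ v) (fun v => - σ v) where
  ok := by simpa [Env.rev] using h.ok
  mem v := by rw [h.mem v]; omega
  out v hv := by rw [h.out v hv]

theorem Sch.ofRev (h : Sch E.rev X (-t) (-s) (fun v => - τ v) σ) :
    Sch E X s t τ (fun v => - σ v) where
  ok := h.ok
  mem v := by rw [h.mem v]; omega
  out v hv := by rw [h.out v hv]; omega

/-- A rearrangement of a smaller interval is a rearrangement of the interval. -/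
theorem Sch.sub (h : Sch E X s t τ σ) {Y : Set V} {s' t' : ℤ} (hs : s ≤ s') (ht : t' ≤ t)
    (h0 : ∀ v, v ∈ Y ↔ s' < σ v ∧ σ v < t') (h' : Sch E Y s' t' σ ρ) : Sch E X s t τ ρ where
  ok := h'.ok
  mem v := by
    by_cases hv : v ∈ Y
    · have h1 := (h0 v).1 hv
      have h2 := (h'.mem v).1 hv
      rw [h.mem v]
      omega
    · rw [h'.out v hv, h.mem v]
  out v hv := by
    have h1 : v ∉ Y := fun h2 => hv ((h.mem v).2 (by have := (h0 v).1 h2; omega))
    rw [h'.out v h1, h.out v hv]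

theorem Sch.zone (h : E.Ok σ) (s t : ℤ) : Sch E {v | s < σ v ∧ σ v < t} s t σ σ :=
  ⟨h, fun _ => Iff.rfl, fun _ _ => rfl⟩

section Fin

variable [Fintype V] [DecidableEq V]

theorem Sch.swap (hE : E.Good) (h : Sch E X s t τ σ) {x y : V} (hx : x ∈ X) (hy : y ∈ X)
    (hxy : σ x < σ y) (hs : Safe E σ x y) : Sch E X s t τ fun v => σ (Equiv.swap x y v) where
  ok := hE.swap σ h.ok x y hxy hs
  mem v := by
    rw [← h.mem, Equiv.swap_apply_def]
    split_ifs with h1 h2
    · subst h1; exact ⟨fun _ => hy, fun _ => hx⟩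
    · subst h2; exact ⟨fun _ => hx, fun _ => hy⟩
    · rfl
  out v hv := by
    rw [Equiv.swap_apply_of_ne_of_ne (by rintro rfl; exact hv hx) (by rintro rfl; exact hv hy),
      h.out v hv]

/-- The total weight of slot `f`. -/
def slotSum (w : V → ℤ) (σ : V → ℤ) (f : ℤ) : ℤ := ∑ v ∈ univ.filter (fun v => σ v = f), w v

/-- Two schedules agree on the slots after `f`. -/
def Agree (f : ℤ) (τ σ : V → ℤ) : Prop := ∀ v, f < τ v ∨ f < σ v → σ v = τ v

/-- No slot can get a larger weight without changing a later slot. -/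
def Opt (E : Env V) (X : Set V) (s t : ℤ) (w : V → ℤ) (σ : V → ℤ) : Prop :=
  ∀ f ρ, Sch E X s t σ ρ → Agree f σ ρ → slotSum w ρ f ≤ slotSum w σ f

omit [Fintype V] [DecidableEq V] in
theorem Agree.trans {f g : ℤ} (hgf : g ≤ f) (h1 : Agree g τ σ) (h2 : Agree f σ ρ) :
    Agree f τ ρ := by
  intro v h
  rcases h with h | h
  · have e := h1 v (Or.inl (by omega))
    rw [h2 v (Or.inl (by omega)), e]
  · have e := h2 v (Or.inr h)
    rw [e, h1 v (Or.inr (by omega))]

omit [DecidableEq V] in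
theorem slotSum_out (h0 : Sch E X s t τ τ) (h : Sch E X s t τ σ) (w : V → ℤ) {f : ℤ}
    (hf : f ≤ s ∨ t ≤ f) : slotSum w σ f = slotSum w τ f := by
  refine sum_congr (filter_congr fun v _ => ⟨fun h2 => ?_, fun h2 => ?_⟩) fun _ _ => rfl
  · rw [← h.out v fun h3 => by have := (h.mem v).1 h3; omega, h2]
  · rw [h.out v fun h3 => by have := (h0.mem v).1 h3; omega, h2]

omit [DecidableEq V] in
theorem exists_opt (h : Sch E X s t τ τ) (w : V → ℤ) :
    ∃ σ, Sch E X s t τ σ ∧ Opt E X s t w σ := by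
  have key : ∀ k : ℕ, ∃ σ, Sch E X s t τ σ ∧ ∀ f ρ, t - k ≤ f → Sch E X s t τ ρ →
      Agree f σ ρ → slotSum w ρ f ≤ slotSum w σ f := by
    intro k
    induction k with
    | zero =>
      refine ⟨τ, h, fun f ρ hf hρ _ => ?_⟩
      rw [slotSum_out h hρ w (Or.inr (by simpa using hf))]
    | succ k ih =>
      obtain ⟨σ, hσ, hopt⟩ := ih
      obtain ⟨z, ⟨σ', hσ', hag, hz⟩, hmax⟩ := Int.exists_greatest_of_bdd
        (P := fun z => ∃ ρ, Sch E X s t τ ρ ∧ Agree (t - k - 1) σ ρ ∧
          slotSum w ρ (t - k - 1) = z)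
        ⟨∑ v, |w v|, by
          rintro z ⟨ρ, -, -, rfl⟩
          exact (sum_le_sum fun v _ => le_abs_self (w v)).trans
            (sum_le_sum_of_subset_of_nonneg (filter_subset _ _) fun v _ _ => abs_nonneg _)⟩
        ⟨_, σ, hσ, fun _ _ => rfl, rfl⟩
      refine ⟨σ', hσ', fun f ρ hf hρ hρ' => ?_⟩
      push_cast at hf
      rcases eq_or_lt_of_le (show t - k - 1 ≤ f by omega) with h1 | h1
      · subst h1
        rw [hz]
        exact hmax _ ⟨ρ, hρ, hag.trans le_rfl hρ', rfl⟩
      · have e : slotSum w σ' f = slotSum w σ f := by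
          refine sum_congr (filter_congr fun v _ => ⟨fun h2 => ?_, fun h2 => ?_⟩) fun _ _ => rfl
          · rw [← hag v (Or.inr (by omega)), h2]
          · rw [hag v (Or.inl (by omega)), h2]
        rw [e]
        exact hopt f ρ (by omega) hρ (hag.trans h1.le hρ')
  obtain ⟨σ, hσ, hopt⟩ := key (t - s).toNat
  refine ⟨σ, hσ, fun f ρ hρ hag => ?_⟩
  by_cases hf : t - (t - s).toNat ≤ f
  · exact hopt f ρ hf (hσ.trans hρ) hag
  · rw [slotSum_out hσ.refl hρ w (Or.inl (by omega))]

theorem slotSum_swap (w : V → ℤ) {x y : V} (hxy : σ x < σ y) :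
    slotSum w (fun v => σ (Equiv.swap x y v)) (σ y) = slotSum w σ (σ y) - w y + w x := by
  have h1 : slotSum w (fun v => σ (Equiv.swap x y v)) (σ y) =
      ∑ v ∈ univ.filter (fun v => σ v = σ y), w (Equiv.swap x y v) := by
    refine sum_bij (fun v _ => Equiv.swap x y v) ?_ ?_ ?_ ?_
    · intro v hv
      rw [mem_filter] at hv ⊢
      exact ⟨mem_univ _, hv.2⟩
    · intro a _ b _ hab
      exact (Equiv.swap x y).injective hab
    · intro b hb
      rw [mem_filter] at hb
      refine ⟨Equiv.swap x y b, ?_, by simp⟩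
      rw [mem_filter]
      exact ⟨mem_univ _, by simpa using hb.2⟩
    · intro a _
      simp
  have hyS : y ∈ univ.filter (fun v => σ v = σ y) := mem_filter.2 ⟨mem_univ _, rfl⟩
  rw [h1, slotSum, ← add_sum_erase _ _ hyS, ← add_sum_erase _ _ hyS, Equiv.swap_apply_right]
  have h2 : ∑ v ∈ (univ.filter fun v => σ v = σ y).erase y, w (Equiv.swap x y v) =
      ∑ v ∈ (univ.filter fun v => σ v = σ y).erase y, w v := by
    refine sum_congr rfl fun v hv => ?_
    rw [mem_erase, mem_filter] at hv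
    rw [Equiv.swap_apply_of_ne_of_ne _ hv.1]
    rintro rfl
    omega
  rw [h2]
  ring

/-- After any rearrangement `ρ` of the slots before the slot of `y`, the job `y` cannot be
exchanged with a heavier earlier job. -/
theorem Opt.no_swap' (hE : E.Good) {w : V → ℤ} (ho : Opt E X s t w σ) (hρ : Sch E X s t σ ρ)
    {x y : V} (hx : x ∈ X) (hy : y ∈ X) (hxy : ρ x < ρ y)
    (hag : ∀ v, ρ y ≤ σ v ∨ ρ y ≤ ρ v → ρ v = σ v) (hs : Safe E ρ x y) : w x ≤ w y := by
  have h1 := ho (ρ y) _ (hρ.swap hE hx hy hxy hs) (by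
    intro v h
    by_cases h2 : v = x
    · subst h2
      simp only [Equiv.swap_apply_left] at h
      rcases h with h | h
      · have := hag v (Or.inl h.le)
        omega
      · omega
    by_cases h3 : v = y
    · subst h3
      simp only [Equiv.swap_apply_right] at h
      have := hag v (Or.inr le_rfl)
      omega
    simp only [Equiv.swap_apply_of_ne_of_ne h2 h3] at h ⊢
    exact hag v (h.imp le_of_lt le_of_lt))
  rw [slotSum_swap w hxy] at h1
  have e : slotSum w ρ (ρ y) = slotSum w σ (ρ y) := by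
    refine sum_congr (filter_congr fun v _ => ⟨fun h2 => ?_, fun h2 => ?_⟩) fun _ _ => rfl
    · rw [← hag v (Or.inr h2.ge), h2]
    · rw [hag v (Or.inl h2.ge), h2]
  omega

/-! ### The cut lemma -/

/-- Every job outside `L` before `f` precedes a job shortly after `f`, or is due before `f`. -/
def GoodL (E : Env V) (X : Set V) (σ : V → ℤ) (L : Set V) (f : ℤ) : Prop :=
  ∀ h ∈ X, h ∉ L → σ h < f → (∃ z, f ≤ σ z ∧ σ z < f + E.q ∧ E.lt h z) ∨ E.hi h < f

/-- Every job in `L` after `f` follows a job shortly before `f`, or is released after `f`. -/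
def GoodR (E : Env V) (X : Set V) (σ : V → ℤ) (L : Set V) (f : ℤ) : Prop :=
  ∀ c ∈ X, c ∈ L → f < σ c → (∃ z, f - E.q < σ z ∧ σ z ≤ f ∧ E.lt z c) ∨ f < E.lo c

/-- No job outside `L` can be exchanged with a later job in `L`. -/
def NoSwap (E : Env V) (X : Set V) (σ : V → ℤ) (L : Set V) : Prop :=
  ∀ x ∈ X, ∀ y ∈ X, x ∉ L → y ∈ L → σ x < σ y → ¬ Safe E σ x y

variable {L : Set V}

theorem back_rule (hE : E.Good) (h : Sch E X s t τ σ)
    (hL : ∀ u v, E.lt u v → v ∈ L → u ∈ L) (hns : NoSwap E X σ L) {c : V} (hc : c ∈ X)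
    (hcL : c ∈ L) {g : ℤ} (hg : ∀ z, E.lt z c → σ z + E.q ≤ g) (hg' : E.lo c ≤ g) :
    ∀ x ∈ X, x ∉ L → g ≤ σ x → σ x < σ c →
      (∃ z, σ c ≤ σ z ∧ σ z < σ c + E.q ∧ E.lt x z) ∨ E.hi x < σ c := by
  have key : ∀ k : ℕ, ∀ x ∈ X, x ∉ L → g ≤ σ x → σ x < σ c → σ c - σ x ≤ k →
      (∃ z, σ c ≤ σ z ∧ σ z < σ c + E.q ∧ E.lt x z) ∨ E.hi x < σ c := by
    intro k
    induction k with
    | zero => intro x _ _ _ h1 h2; omega
    | succ k ih =>
      intro x hx hxL h1 h2 h3
      by_contra hcon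
      rw [not_or] at hcon
      refine hns x hx c hc hxL hcL h2 ⟨fun z hxz => ?_, fun z hzc => ?_, by omega, by omega⟩
      · by_contra h4
        have h5 := hE.mono σ h.ok x z hxz
        by_cases h6 : σ c ≤ σ z
        · exact hcon.1 ⟨z, h6, by omega, hxz⟩
        · have hz : z ∈ X := (h.mem z).2 (by
            have := (h.mem x).1 hx
            have := (h.mem c).1 hc
            omega)
          rcases ih z hz (fun h7 => hxL (hL x z hxz h7)) (by omega) (by omega)
            (by push_cast at h3; omega) with ⟨z', h7, h8, h9⟩ | h7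
          · exact hcon.1 ⟨z', h7, h8, hE.tr _ _ _ hxz h9⟩
          · have := hE.himono x z hxz
            omega
      · have := hg z hzc
        omega
  intro x hx hxL h1 h2
  exact key (σ c - σ x).toNat x hx hxL h1 h2 (by omega)

theorem src_rule (hE : E.Good) (h : Sch E X s t τ σ)
    (hL : ∀ u v, E.lt u v → v ∈ L → u ∈ L) (hns : NoSwap E X σ L) {y : V} (hy : y ∈ X)
    (hyL : y ∈ L) (hg : ∀ z, E.lt z y → σ z + E.q ≤ s) (hg' : E.lo y ≤ s) :
    GoodL E X σ L (σ y) := fun x hx hxL h1 =>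
  back_rule hE h hL hns hy hyL hg hg' x hx hxL ((h.mem x).1 hx).1.le h1

theorem fwd_rule (hE : E.Good) (h : Sch E X s t τ σ)
    (hL : ∀ u v, E.lt u v → v ∈ L → u ∈ L) (hns : NoSwap E X σ L) {x : V} (hx : x ∈ X)
    (hxL : x ∉ L) (hg : ∀ z, E.lt x z → t + E.q ≤ σ z) (hg' : t ≤ E.hi x) :
    GoodR E X σ L (σ x) := by
  have key : ∀ k : ℕ, ∀ c ∈ X, c ∈ L → σ x < σ c → σ c - σ x ≤ k →
      (∃ z, σ x - E.q < σ z ∧ σ z ≤ σ x ∧ E.lt z c) ∨ σ x < E.lo c := by
    intro k
    induction k with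
    | zero => intro c _ _ h1 h2; omega
    | succ k ih =>
      intro c hc hcL h2 h3
      by_contra hcon
      rw [not_or] at hcon
      have hct := (h.mem c).1 hc
      refine hns x hx c hc hxL hcL h2 ⟨fun z hxz => ?_, fun z hzc => ?_, by omega, by omega⟩
      · have := hg z hxz
        omega
      · by_contra h4
        have h5 := hE.mono σ h.ok z c hzc
        by_cases h6 : σ z ≤ σ x
        · exact hcon.1 ⟨z, by omega, h6, hzc⟩
        · have hz : z ∈ X := (h.mem z).2 (by
            have := (h.mem x).1 hx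
            omega)
          rcases ih z hz (hL z c hzc hcL) (by omega) (by push_cast at h3; omega) with
            ⟨z', h7, h8, h9⟩ | h7
          · exact hcon.1 ⟨z', h7, h8, hE.tr _ _ _ h9 hzc⟩
          · have := hE.lomono z c hzc
            omega
  intro c hc hcL h1
  exact key (σ c - σ x).toNat c hc hcL h1 (by omega)

/-- The cut lemma. -/
theorem exists_cut (hE : E.Good) (h : Sch E X s t τ σ)
    (hL : ∀ u v, E.lt u v → v ∈ L → u ∈ L) (hns : NoSwap E X σ L) {y : V} (hy : y ∈ X) {b : ℤ}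
    (hyb : σ y ≤ b) (hp : GoodL E X σ L (σ y)) (hq : GoodR E X σ L b) :
    ∃ c ∈ X, σ y ≤ σ c ∧ σ c ≤ b ∧ GoodL E X σ L (σ c) ∧ GoodR E X σ L (σ c) := by
  obtain ⟨g, ⟨c₀, hc₀, rfl, hg1, hg2, hg3⟩, hmax⟩ := Int.exists_greatest_of_bdd
    (P := fun g => ∃ c ∈ X, σ c = g ∧ σ y ≤ g ∧ g ≤ b ∧ GoodL E X σ L g)
    ⟨b, fun z ⟨_, _, _, _, hz, _⟩ => hz⟩ ⟨σ y, y, hy, rfl, le_rfl, hyb, hp⟩
  refine ⟨c₀, hc₀, hg1, hg2, hg3, ?_⟩
  have hc₀' := (h.mem c₀).1 hc₀
  have hq1 := hE.q1
  have key : ∀ k : ℕ, ∀ c ∈ X, c ∈ L → σ c₀ < σ c → σ c - σ c₀ ≤ k →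
      (∃ z, σ c₀ - E.q < σ z ∧ σ z ≤ σ c₀ ∧ E.lt z c) ∨ σ c₀ < E.lo c := by
    intro k
    induction k with
    | zero => intro c _ _ h1 h2; omega
    | succ k ih =>
      intro c hc hcL h1 h2
      by_contra hcon
      rw [not_or] at hcon
      have hct := (h.mem c).1 hc
      have hpre : ∀ z, E.lt z c → σ z + E.q ≤ σ c₀ := by
        intro z hzc
        by_contra h4
        have h5 := hE.mono σ h.ok z c hzc
        by_cases h6 : σ z ≤ σ c₀
        · exact hcon.1 ⟨z, by omega, h6, hzc⟩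
        · rcases ih z ((h.mem z).2 (by omega)) (hL z c hzc hcL) (by omega)
            (by push_cast at h2; omega) with ⟨z', h7, h8, h9⟩ | h7
          · exact hcon.1 ⟨z', h7, h8, hE.tr _ _ _ h9 hzc⟩
          · have := hE.lomono z c hzc
            omega
      have hcq : σ c ≤ b := by
        by_contra h4
        rcases hq c hc hcL (not_le.1 h4) with ⟨z, h5, -, h6⟩ | h5
        · have := hpre z h6
          omega
        · omega
      have hB := back_rule hE h hL hns hc hcL hpre (by omega)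
      have hgood : GoodL E X σ L (σ c) := by
        intro x hx hxL h3
        by_cases h4 : σ c₀ ≤ σ x
        · exact hB x hx hxL h4 h3
        · rcases hg3 x hx hxL (not_le.1 h4) with ⟨z, h5, h6, h7⟩ | h5
          · by_cases h8 : σ c ≤ σ z
            · exact Or.inl ⟨z, h8, by omega, h7⟩
            · rcases hB z ((h.mem z).2 (by omega)) (fun h9 => hxL (hL x z h7 h9)) h5 (by omega)
                with ⟨z', h9, h10, h11⟩ | h9
              · exact Or.inl ⟨z', h9, h10, hE.tr _ _ _ h7 h11⟩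
              · have := hE.himono x z h7
                exact Or.inr (by omega)
          · exact Or.inr (by omega)
      have := hmax (σ c) ⟨c, hc, rfl, by omega, hcq, hgood⟩
      omega
  intro c hc hcL h1
  exact key (σ c - σ c₀).toNat c hc hcL h1 (by omega)

end Fin

end Vale.Agent.N324
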