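import Vale.Agent.P324.Defs
import Mathlib.Data.Real.Basic

/-!
Scheduling of jobs of equal length on `m` identical machines with precedence constraints, delays,
communication delays, release dates, due dates and periods in which a machine is not available.
-/

namespace Vale.Agent.N324

open Vale.Agent.P324

/-- An instance. -/
structure Inst where
  /-- the jobs and the precedence graph -/
  G : Graph
  /-- the common processing time -/
  p : ℕ
  /-- release dates -/
  r : Fin G.n → ℕ
  /-- due dates -/
  d : Fin G.n → ℕ
  /-- delays on the arcs, in multiples of `p` -/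
  lag : Fin G.n → Fin G.n → ℕ
  /-- communication delays on the arcs, for jobs on different machines -/
  com : Fin G.n → Fin G.n → ℕ
  /-- `(i, a, b)`: machine `i` is not available between the times `a` and `b` -/
  down : List (ℕ × ℕ × ℕ)

/-- Job `v` runs on machine `μ v` during the time interval `[s v, s v + p)`. -/
def Sched (m : ℕ) (I : Inst) (s : Fin I.G.n → ℝ) (μ : Fin I.G.n → Fin m) : Prop :=
  (∀ v, (I.r v : ℝ) ≤ s v) ∧
  (∀ u v, I.G.arc u v = true →
    s u + I.p + I.lag u v * I.p + (if μ u = μ v then 0 else (I.com u v : ℝ)) ≤ s v) ∧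
  (∀ u v, u ≠ v → μ u = μ v → s u + I.p ≤ s v ∨ s v + I.p ≤ s u) ∧
  ∀ v, ∀ e ∈ I.down, e.1 = (μ v).val → s v + I.p ≤ e.2.1 ∨ (e.2.2 : ℝ) ≤ s v

/-- The maximum lateness is at most `x`. -/
def Late (I : Inst) (s : Fin I.G.n → ℝ) (x : ℝ) : Prop := ∀ v, s v + I.p - I.d v ≤ x

/-- The code of a pair: every bit of `x` is preceded by `true`, then `false`, then `y`. -/
def pc (x y : List Bool) : List Bool := (x.flatMap fun b => [true, b]) ++ false :: y

/-- The code of a list. -/
def lst {α : Type} (f : α → List Bool) (l : List α) : List Bool :=
  l.foldr (fun a w => pc (f a) w) []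

/-- The code of an instance; all numbers are written in binary. -/
def Inst.code (I : Inst) : List Bool :=
  pc I.G.code (pc I.p.bits (pc (lst Nat.bits (List.ofFn I.r)) (pc (lst Nat.bits (List.ofFn I.d))
    (pc (lst (lst Nat.bits) (List.ofFn fun u => List.ofFn (I.lag u)))
      (pc (lst (lst Nat.bits) (List.ofFn fun u => List.ofFn (I.com u)))
        (lst (fun e => pc e.1.bits (pc e.2.1.bits e.2.2.bits)) I.down))))))

/-- The code of an answer: nothing, or a list of pairs (start time, machine). -/
def outCode : Option (List (ℕ × ℕ)) → List Bool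
  | none => []
  | some l => true :: lst (fun e => pc e.1.bits e.2.bits) l

end Vale.Agent.N324
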