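import Vale.Agent.P324.AlgoPT

/-!
The dynamic program over decomposition trees with pinned boundary strips, and its running time.
-/

namespace Vale.Agent.N324

open List Vale.Agent.Lib.PolyTime

/-- The parameters of the dynamic program. A schedule is a list of slot codes, `0` for jobs that
are not scheduled. -/
structure Par where
  /-- number of jobs -/
  n : ℕ
  /-- width of the strips -/
  q : ℕ
  /-- start time of a slot -/
  st : ℕ → ℕ
  /-- unary constraints -/
  ok1 : ℕ → ℕ → Bool
  /-- binary constraints -/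
  ok2 : ℕ → ℕ → ℕ → ℕ → Bool
  /-- cost of a slot -/
  cst : ℕ → ℕ
  /-- family of job sets -/
  F : List (List ℕ)
  /-- slot codes -/
  C : List ℕ

/-- Change one entry. -/
def upd (n : ℕ) (β : List ℕ) (v x : ℕ) : List ℕ :=
  (range n).map fun i => if i = v then x else β.getD i 0

/-- All schedules of at most `k` jobs. -/
def betas (P : Par) : ℕ → List (List ℕ)
  | 0 => [(range P.n).map fun _ => 0]
  | k + 1 => betas P k ++
      (betas P k).flatMap fun β => (range P.n).flatMap fun v => P.C.map fun x => upd P.n β v x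

/-- Union of two schedules. -/
def glue (n : ℕ) (τ₁ τ₂ : List ℕ) : List ℕ :=
  (range n).map fun i => if τ₁.getD i 0 = 0 then τ₂.getD i 0 else τ₁.getD i 0

/-- All constraints between scheduled jobs hold. -/
def valid (P : Par) (τ : List ℕ) : Bool :=
  (range P.n).all fun u => decide (τ.getD u 0 = 0) || (P.ok1 u (τ.getD u 0) &&
    (range P.n).all fun v => decide (τ.getD v 0 = 0) || decide (u = v) ||
      P.ok2 u (τ.getD u 0) v (τ.getD v 0))

/-- Keys of the table: two bounds, a job set, the schedule of the boundary strips. -/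
abbrev Key := ℕ × ℕ × List ℕ × List ℕ

/-- The schedule belongs to the key. -/
def fits (P : Par) (k : Key) (τ : List ℕ) : Bool :=
  (range P.n).all fun v => if v ∈ k.2.2.1 then (!decide (τ.getD v 0 = 0) &&
    decide (k.1 ≤ P.st (τ.getD v 0)) && decide (P.st (τ.getD v 0) + P.q ≤ k.2.1))
    else decide (τ.getD v 0 = k.2.2.2.getD v 0)

/-- The cost of a schedule. -/
def cost (P : Par) (τ : List ℕ) : ℕ := ((range P.n).map fun v => P.cst (τ.getD v 0)).sum

/-- An element of least weight, if there is one. -/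
def best {β : Type*} (w : β → ℕ) (l : List β) : List β :=
  (l.filter fun x => l.all fun y => decide (w x ≤ w y)).take 1

/-- A time after all slots. -/
def top (P : Par) : ℕ := (P.C.map P.st).sum + P.q

/-- All keys. -/
def keys (P : Par) (M : ℕ) : List Key :=
  (0 :: P.C.map fun x => P.st x + P.q).flatMap fun a => (top P :: P.C.map P.st).flatMap fun b =>
    P.F.flatMap fun X => (betas P M).map fun β => (a, b, X, β)

/-- The candidates of a round. -/
def cands (P : Par) (M : ℕ) (tab : List (List ℕ)) : List (List ℕ) :=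
  betas P M ++ tab.flatMap fun τ₁ => tab.map fun τ₂ => glue P.n τ₁ τ₂

/-- One round: a cheapest candidate for each key. -/
def round (P : Par) (M : ℕ) (tab : List (List ℕ)) : List (List ℕ) :=
  (keys P M).flatMap fun k =>
    best (cost P) ((cands P M tab).filter fun τ => valid P τ && fits P k τ)

/-- A cheapest complete schedule of the final table. -/
def solve (P : Par) (M : ℕ) : List (List ℕ) :=
  best (cost P) (((round P M)^[P.n + 1] []).filter fun τ =>
    valid P τ && (range P.n).all fun v => !decide (τ.getD v 0 = 0))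

/-! ### Shape of the entries -/

/-- The entry has the right length and consists of slot codes. -/
def Shape (P : Par) (τ : List ℕ) : Prop := τ.length = P.n ∧ ∀ x ∈ τ, x = 0 ∨ x ∈ P.C

theorem getD_mem {P : Par} {τ : List ℕ} (h : Shape P τ) (i : ℕ) :
    τ.getD i 0 = 0 ∨ τ.getD i 0 ∈ P.C := by
  by_cases hi : i < τ.length
  · rw [getD_eq_getElem _ _ hi]
    exact h.2 _ (getElem_mem hi)
  · rw [getD_eq_default _ _ (not_lt.1 hi)]
    exact Or.inl rfl

theorem shape_betas {P : Par} {k : ℕ} {β : List ℕ} (h : β ∈ betas P k) : Shape P β := by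
  induction k generalizing β with
  | zero =>
    rw [betas, mem_singleton] at h
    subst h
    exact ⟨by simp, fun x hx => Or.inl (by obtain ⟨_, _, rfl⟩ := mem_map.1 hx; rfl)⟩
  | succ k ih =>
    rw [betas, mem_append] at h
    rcases h with h | h
    · exact ih h
    · simp only [mem_flatMap, mem_map] at h
      obtain ⟨γ, hγ, v, -, x, hx, rfl⟩ := h
      refine ⟨by simp [upd], fun y hy => ?_⟩
      obtain ⟨i, -, rfl⟩ := mem_map.1 hy
      split_ifs
      · exact Or.inr hx
      · exact getD_mem (ih hγ) i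

theorem mem_of_best {β : Type*} {w : β → ℕ} {l : List β} {x : β} (h : x ∈ best w l) :
    x ∈ l ∧ ∀ y ∈ l, w x ≤ w y := by
  have := mem_filter.1 (mem_of_mem_take h)
  exact ⟨this.1, by simpa using this.2⟩

theorem best_ne {β : Type*} (w : β → ℕ) {l : List β} {y : β} (hy : y ∈ l) :
    ∃ x, best w l = [x] := by
  have h0 : ∃ x ∈ l, ∀ y ∈ l, w x ≤ w y := by
    have : ∀ k, ∀ y ∈ l, w y ≤ k → ∃ x ∈ l, ∀ y ∈ l, w x ≤ w y := by
      intro k
      induction k with
      | zero => exact fun y hy h => ⟨y, hy, fun z _ => by omega⟩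
      | succ k ih =>
        intro y hy h
        by_cases h1 : ∀ z ∈ l, w y ≤ w z
        · exact ⟨y, hy, h1⟩
        · push Not at h1
          obtain ⟨z, hz, h2⟩ := h1
          exact ih z hz (by omega)
    exact this _ y hy le_rfl
  obtain ⟨x, hx, hx'⟩ := h0
  have h1 : x ∈ l.filter fun x => l.all fun y => decide (w x ≤ w y) :=
    mem_filter.2 ⟨hx, by simpa using hx'⟩
  obtain ⟨z, rest, e⟩ := exists_cons_of_ne_nil (ne_nil_of_mem h1)
  exact ⟨z, by rw [best, e]; simp⟩

theorem shape_cands {P : Par} {M : ℕ} {tab : List (List ℕ)} (ht : ∀ τ ∈ tab, Shape P τ)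
    {τ : List ℕ} (h : τ ∈ cands P M tab) : Shape P τ := by
  rcases mem_append.1 h with h | h
  · exact shape_betas h
  · simp only [mem_flatMap, mem_map] at h
    obtain ⟨τ₁, h₁, τ₂, h₂, rfl⟩ := h
    refine ⟨by simp [glue], fun y hy => ?_⟩
    obtain ⟨i, -, rfl⟩ := mem_map.1 hy
    split_ifs
    · exact getD_mem (ht _ h₂) i
    · exact getD_mem (ht _ h₁) i

theorem shape_table (P : Par) (M k : ℕ) : ∀ τ ∈ (round P M)^[k] [], Shape P τ := by
  induction k with
  | zero => simp
  | succ k ih =>
    intro τ hτ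
    rw [Function.iterate_succ_apply', round, mem_flatMap] at hτ
    obtain ⟨_, -, h⟩ := hτ
    exact shape_cands ih (mem_filter.1 (mem_of_best h).1).1

theorem length_round (P : Par) (M : ℕ) (tab : List (List ℕ)) :
    (round P M tab).length ≤ (keys P M).length := by
  unfold round
  generalize keys P M = K
  induction K with
  | nil => simp
  | cons k K ih =>
    rw [flatMap_cons, length_append, length_cons]
    have : (best (cost P) ((cands P M tab).filter fun τ => valid P τ && fits P k τ)).length ≤ 1 := by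
      rw [best, length_take]
      exact min_le_left _ _
    omega

theorem esize_table (P : Par) (M k : ℕ) : esize ((round P M)^[k] []) ≤
    (keys P M).length * (2 * (P.n * (2 * esize P.C + 1)) + 1) := by
  refine (esize_list_le (B := P.n * (2 * esize P.C + 1)) fun τ hτ => ?_).trans
    (Nat.mul_le_mul_right _ ?_)
  · have h := shape_table P M k τ hτ
    rw [← h.1]
    refine esize_list_le fun x hx => ?_
    rcases h.2 x hx with rfl | h1
    · exact (esize_nat_le_self 0).trans (Nat.zero_le _)
    · exact esize_le_of_mem h1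
  · cases k with
    | zero => simp
    | succ k =>
      rw [Function.iterate_succ_apply']
      exact length_round _ _ _

/-! ### Polynomial time -/

variable {A : Set Word} {α β : Type*} [Enc α] [Enc β]

/-- The parameters are computable in polynomial time. -/
structure PPT (A : Set Word) (P : α → Par) : Prop where
  n : PT A fun a => (P a).n
  nb : PBd fun a => (P a).n
  q : PT A fun a => (P a).q
  st : PT A fun p : α × ℕ => (P p.1).st p.2
  ok1 : PT A fun p : α × ℕ × ℕ => (P p.1).ok1 p.2.1 p.2.2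
  ok2 : PT A fun p : α × ℕ × ℕ × ℕ × ℕ => (P p.1).ok2 p.2.1 p.2.2.1 p.2.2.2.1 p.2.2.2.2
  cst : PT A fun p : α × ℕ => (P p.1).cst p.2
  F : PT A fun a => (P a).F
  C : PT A fun a => (P a).C

variable {P : α → Par}

theorem PPT.comp (h : PPT A P) {f : β → α} (hf : PT A f) : PPT A fun b => P (f b) where
  n := h.n.comp hf
  nb := h.nb.comp hf
  q := h.q.comp hf
  st := h.st.comp ((hf.comp PT.fst').pair PT.snd')
  ok1 := h.ok1.comp ((hf.comp PT.fst').pair PT.snd')
  ok2 := h.ok2.comp ((hf.comp PT.fst').pair PT.snd')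
  cst := h.cst.comp ((hf.comp PT.fst').pair PT.snd')
  F := h.F.comp hf
  C := h.C.comp hf

theorem PPT.range (h : PPT A P) : PT A fun a => range (P a).n := PT.range h.n h.nb

theorem pt_get {τ : α → List ℕ} {i : α → ℕ} (hτ : PT A τ) (hi : PT A i) :
    PT A fun a => (τ a).getD (i a) 0 := PT.getD hτ hi (PT.const 0)

theorem pt_upd (h : PPT A P) {τ : α → List ℕ} {v x : α → ℕ} (hτ : PT A τ) (hv : PT A v)
    (hx : PT A x) : PT A fun a => upd (P a).n (τ a) (v a) (x a) :=
  PT.map (f := fun a i => if i = v a then x a else (τ a).getD i 0) h.range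
    (PT.ite (PT.eqNat PT.snd' (hv.comp PT.fst')) (hx.comp PT.fst')
      (pt_get (hτ.comp PT.fst') PT.snd'))

theorem pt_betas (h : PPT A P) (k : ℕ) : PT A fun a => betas (P a) k := by
  induction k with
  | zero => exact PT.cons (PT.map (f := fun _ _ => 0) h.range (PT.const 0)) PT.nil
  | succ k ih =>
    refine ih.append (PT.flatMap (f := fun a β => (range (P a).n).flatMap fun v =>
      (P a).C.map fun x => upd (P a).n β v x) ih ?_)
    refine PT.flatMap (f := fun (p : α × List ℕ) v =>
      (P p.1).C.map fun x => upd (P p.1).n p.2 v x) (h.comp PT.fst').range ?_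
    exact PT.map (f := fun (p : (α × List ℕ) × ℕ) x => upd (P p.1.1).n p.1.2 p.2 x)
      (h.comp PT.fst'.fst).C
      (pt_upd (h.comp PT.fst'.fst.fst) PT.fst'.fst.snd PT.fst'.snd PT.snd')

theorem pt_glue (h : PPT A P) {τ₁ τ₂ : α → List ℕ} (h₁ : PT A τ₁) (h₂ : PT A τ₂) :
    PT A fun a => glue (P a).n (τ₁ a) (τ₂ a) :=
  PT.map (f := fun a i => if (τ₁ a).getD i 0 = 0 then (τ₂ a).getD i 0 else (τ₁ a).getD i 0) h.range
    (PT.ite (PT.eqNat (pt_get (h₁.comp PT.fst') PT.snd') (PT.const 0))
      (pt_get (h₂.comp PT.fst') PT.snd') (pt_get (h₁.comp PT.fst') PT.snd'))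

theorem pt_valid (h : PPT A P) {τ : α → List ℕ} (hτ : PT A τ) :
    PT A fun a => valid (P a) (τ a) := by
  refine PT.all (f := fun a u => decide ((τ a).getD u 0 = 0) || ((P a).ok1 u ((τ a).getD u 0) &&
    (range (P a).n).all fun v => decide ((τ a).getD v 0 = 0) || decide (u = v) ||
      (P a).ok2 u ((τ a).getD u 0) v ((τ a).getD v 0))) h.range ?_
  have g : PT A fun p : α × ℕ => (τ p.1).getD p.2 0 := pt_get (hτ.comp PT.fst') PT.snd'
  refine PT.or (PT.eqNat g (PT.const 0))
    (PT.and (h.ok1.comp (PT.fst'.pair (PT.snd'.pair g))) ?_)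
  refine PT.all (f := fun (p : α × ℕ) v => decide ((τ p.1).getD v 0 = 0) || decide (p.2 = v) ||
      (P p.1).ok2 p.2 ((τ p.1).getD p.2 0) v ((τ p.1).getD v 0)) (h.comp PT.fst').range ?_
  have g' : PT A fun p : (α × ℕ) × ℕ => (τ p.1.1).getD p.2 0 :=
    pt_get (hτ.comp PT.fst'.fst) PT.snd'
  exact PT.or (PT.or (PT.eqNat g' (PT.const 0)) (PT.eqNat PT.fst'.snd PT.snd'))
    (h.ok2.comp (PT.fst'.fst.pair (PT.fst'.snd.pair ((g.comp PT.fst').pair (PT.snd'.pair g')))))

theorem pt_fits (h : PPT A P) {k : α → Key} {τ : α → List ℕ} (hk : PT A k) (hτ : PT A τ) :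
    PT A fun a => fits (P a) (k a) (τ a) := by
  refine PT.all (f := fun a v => if v ∈ (k a).2.2.1 then (!decide ((τ a).getD v 0 = 0) &&
    decide ((k a).1 ≤ (P a).st ((τ a).getD v 0)) &&
    decide ((P a).st ((τ a).getD v 0) + (P a).q ≤ (k a).2.1))
    else decide ((τ a).getD v 0 = (k a).2.2.2.getD v 0)) h.range ?_
  have g : PT A fun p : α × ℕ => (τ p.1).getD p.2 0 := pt_get (hτ.comp PT.fst') PT.snd'
  have hk' : PT A fun p : α × ℕ => k p.1 := hk.comp PT.fst'
  have hs : PT A fun p : α × ℕ => (P p.1).st ((τ p.1).getD p.2 0) := h.st.comp (PT.fst'.pair g)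
  exact PT.ite (PT.mem hk'.snd.snd.fst PT.snd')
    (PT.and (PT.and (PT.eqNat g (PT.const 0)).not (PT.le hk'.fst hs))
      (PT.le (hs.add (h.q.comp PT.fst')) hk'.snd.fst))
    (PT.eqNat g (pt_get hk'.snd.snd.snd PT.snd'))

theorem pt_cost (h : PPT A P) {τ : α → List ℕ} (hτ : PT A τ) : PT A fun a => cost (P a) (τ a) :=
  PT.sum (PT.map (f := fun a v => (P a).cst ((τ a).getD v 0)) h.range
    (h.cst.comp (PT.fst'.pair (pt_get (hτ.comp PT.fst') PT.snd'))))

theorem pt_best {w : α → β → ℕ} {l : α → List β} (hw : PT A fun p : α × β => w p.1 p.2)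
    (hl : PT A l) : PT A fun a => best (w a) (l a) := by
  refine PT.take (PT.filter (f := fun a x => (l a).all fun y => decide (w a x ≤ w a y)) hl ?_)
    (PT.const 1)
  exact PT.all (f := fun (p : α × β) y => decide (w p.1 p.2 ≤ w p.1 y)) (hl.comp PT.fst')
    (PT.le (hw.comp PT.fst') (hw.comp (PT.fst'.fst.pair PT.snd')))

theorem pt_keys (h : PPT A P) (M : ℕ) : PT A fun a => keys (P a) M := by
  have hS : PT A fun a => (P a).C.map (P a).st := PT.map (f := fun a x => (P a).st x) h.C h.st
  refine PT.flatMap (f := fun a x => (top (P a) :: (P a).C.map (P a).st).flatMap fun b =>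
    (P a).F.flatMap fun X => (betas (P a) M).map fun β => (x, b, X, β))
    (PT.cons (PT.const 0) (PT.map (f := fun a x => (P a).st x + (P a).q) h.C
      (h.st.add (h.q.comp PT.fst')))) ?_
  refine PT.flatMap (f := fun (p : α × ℕ) b =>
    (P p.1).F.flatMap fun X => (betas (P p.1) M).map fun β => (p.2, b, X, β))
    ((PT.cons (hS.sum.add h.q) hS).comp PT.fst') ?_
  refine PT.flatMap (f := fun (p : (α × ℕ) × ℕ) X =>
    (betas (P p.1.1) M).map fun β => (p.1.2, p.2, X, β)) (h.comp PT.fst'.fst).F ?_
  exact PT.map (f := fun (p : ((α × ℕ) × ℕ) × List ℕ) β => (p.1.1.2, p.1.2, p.2, β))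
    (pt_betas (h.comp PT.fst'.fst.fst) M)
    (PT.fst'.fst.fst.snd.pair (PT.fst'.fst.snd.pair (PT.fst'.snd.pair PT.snd')))

theorem pt_cands (h : PPT A P) (M : ℕ) {tab : α → List (List ℕ)} (ht : PT A tab) :
    PT A fun a => cands (P a) M (tab a) := by
  refine (pt_betas h M).append (PT.flatMap (f := fun a τ₁ => (tab a).map fun τ₂ =>
    glue (P a).n τ₁ τ₂) ht ?_)
  exact PT.map (f := fun (p : α × List ℕ) τ₂ => glue (P p.1).n p.2 τ₂) (ht.comp PT.fst')
    (pt_glue (h.comp PT.fst'.fst) PT.fst'.snd PT.snd')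

theorem pt_round (h : PPT A P) (M : ℕ) {tab : α → List (List ℕ)} (ht : PT A tab) :
    PT A fun a => round (P a) M (tab a) := by
  refine PT.flatMap (f := fun a k => best (cost (P a))
    ((cands (P a) M (tab a)).filter fun τ => valid (P a) τ && fits (P a) k τ)) (pt_keys h M) ?_
  refine pt_best (w := fun (p : α × Key) τ => cost (P p.1) τ)
    (pt_cost (h.comp PT.fst'.fst) PT.snd') ?_
  exact PT.filter (f := fun (p : α × Key) τ => valid (P p.1) τ && fits (P p.1) p.2 τ)
    ((pt_cands h M ht).comp PT.fst')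
    (PT.and (pt_valid (h.comp PT.fst'.fst) PT.snd')
      (pt_fits (h.comp PT.fst'.fst) PT.fst'.snd PT.snd'))

theorem pt_solve (h : PPT A P) (M : ℕ) : PT A fun a => solve (P a) M := by
  have ht : PT A fun a => (round (P a) M)^[(P a).n + 1] [] :=
    PT.iterate' (step := fun a tab => round (P a) M tab) (h.n.add (PT.const 1))
      (h.nb.add (PBd.const 1)) PT.nil (pt_round (h.comp PT.fst') M PT.snd')
      (b := fun a => (keys (P a) M).length * (2 * ((P a).n * (2 * esize (P a).C + 1)) + 1))
      ((PBd.length (pt_keys h M)).mul (((PBd.const 2).mul (h.nb.mul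
        (((PBd.const 2).mul h.C.pbd).add (PBd.const 1)))).add (PBd.const 1)))
      fun a j _ => esize_table _ _ _
  refine pt_best (w := fun a τ => cost (P a) τ) (pt_cost (h.comp PT.fst') PT.snd') ?_
  refine PT.filter (f := fun a τ => valid (P a) τ &&
    (range (P a).n).all fun v => !decide (τ.getD v 0 = 0)) ht
    (PT.and (pt_valid (h.comp PT.fst') PT.snd') ?_)
  exact PT.all (f := fun (p : α × List ℕ) v => !decide (p.2.getD v 0 = 0)) (h.comp PT.fst').range
    (PT.eqNat (pt_get PT.fst'.snd PT.snd') (PT.const 0)).not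

end Vale.Agent.N324
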