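import Vale.Agent.N324.Defs
import Mathlib.Algebra.Order.Floor.Semiring
import Mathlib.Algebra.Order.Archimedean.Real.Basic
import Mathlib.Algebra.BigOperators.Fin
import Mathlib.Algebra.Order.BigOperators.Group.Finset
import Mathlib.Tactic.Linarith
import Mathlib.Tactic.Ring

/-!
Integral schedules, rounding, and left shifts.
-/

namespace Vale.Agent.N324

open Finset

/-- Integral schedules that meet the deadlines `d`. -/
structure NS (m : ℕ) (I : Inst) (d s μ : Fin I.G.n → ℕ) : Prop where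
  lt : ∀ v, μ v < m
  rel : ∀ v, I.r v ≤ s v
  dl : ∀ v, s v + I.p ≤ d v
  arc : ∀ u v, I.G.arc u v = true →
    s u + I.p + I.lag u v * I.p + (if μ u = μ v then 0 else I.com u v) ≤ s v
  mach : ∀ u v, u ≠ v → μ u = μ v → s u + I.p ≤ s v ∨ s v + I.p ≤ s u
  down : ∀ v, ∀ e ∈ I.down, e.1 = μ v → s v + I.p ≤ e.2.1 ∨ e.2.2 ≤ s v

variable {m L : ℕ} {I : Inst} {d s μ : Fin I.G.n → ℕ}

theorem NS.sched (h : NS m I d s μ) : Sched m I (fun v => s v) fun v => ⟨μ v, h.lt v⟩ := by
  refine ⟨fun v => by beta_reduce; exact_mod_cast h.rel v,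
    fun u v huv => ?_, fun u v huv e => ?_, fun v e he h1 => ?_⟩
  · have h1 := h.arc u v huv
    simp only [Fin.mk.injEq]
    exact_mod_cast h1
  · rcases h.mach u v huv (congrArg Fin.val e) with h1 | h1
    · exact Or.inl (by beta_reduce; exact_mod_cast h1)
    · exact Or.inr (by beta_reduce; exact_mod_cast h1)
  · rcases h.down v e he h1 with h1 | h1
    · exact Or.inl (by beta_reduce; exact_mod_cast h1)
    · exact Or.inr (by beta_reduce; exact_mod_cast h1)

theorem Sched.floor_le {s : Fin I.G.n → ℝ} {μ : Fin I.G.n → Fin m} (h : Sched m I s μ)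
    (v : Fin I.G.n) : (⌊s v⌋₊ : ℝ) ≤ s v :=
  Nat.floor_le ((Nat.cast_nonneg _).trans (h.1 v))

theorem Sched.floor {s : Fin I.G.n → ℝ} {μ : Fin I.G.n → Fin m} (h : Sched m I s μ)
    (hd : ∀ v, ⌊s v⌋₊ + I.p ≤ d v) : NS m I d (fun v => ⌊s v⌋₊) fun v => μ v := by
  have h0 := h.floor_le
  refine ⟨fun v => (μ v).2, fun v => Nat.le_floor (h.1 v), hd, fun u v huv => Nat.le_floor ?_,
    fun u v huv e => ?_, fun v e he h1 => ?_⟩
  · have := h.2.1 u v huv
    have := h0 u
    simp only [Fin.val_inj]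
    push_cast
    linarith
  · rcases h.2.2.1 u v huv (Fin.ext e) with h1 | h1
    · refine Or.inl (Nat.le_floor ?_)
      have := h0 u
      push_cast
      linarith
    · refine Or.inr (Nat.le_floor ?_)
      have := h0 v
      push_cast
      linarith
  · rcases h.2.2.2 v e he h1 with h1 | h1
    · left
      have := h0 v
      have h2 : ((⌊s v⌋₊ + I.p : ℕ) : ℝ) ≤ e.2.1 := by
        push_cast
        linarith
      exact_mod_cast h2
    · exact Or.inr (Nat.le_floor h1)

theorem NS.shift (h : NS m I d s μ) (hp : 1 ≤ I.p) (hL : ∀ u v, I.lag u v ≤ L ∧ I.com u v ≤ 1)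
    (v : Fin I.G.n) (h1 : s v ≠ I.r v) (h2 : ∀ e ∈ I.down, s v ≠ e.2.2)
    (h3 : ∀ u j i, 1 ≤ j → j ≤ L + 1 → i ≤ 1 → s v ≠ s u + j * I.p + i) :
    NS m I d (Function.update s v (s v - 1)) μ := by
  have e : ∀ u, (u = v ∧ Function.update s v (s v - 1) u = s u - 1) ∨
      (u ≠ v ∧ Function.update s v (s v - 1) u = s u) := fun u => by
    by_cases hu : u = v
    · subst hu
      exact Or.inl ⟨rfl, by simp⟩
    · exact Or.inr ⟨hu, Function.update_of_ne hu _ _⟩
  refine ⟨h.lt, fun u => ?_, fun u => ?_, fun u w huw => ?_, fun u w huw hm => ?_,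
    fun u x hx hm => ?_⟩
  · have := h.rel u
    rcases e u with ⟨rfl, e1⟩ | ⟨-, e1⟩ <;> omega
  · have := h.dl u
    rcases e u with ⟨rfl, e1⟩ | ⟨-, e1⟩ <;> omega
  · have h4 := h.arc u w huw
    have h5 := h3 u (I.lag u w + 1) (if μ u = μ w then 0 else I.com u w) (by omega)
      (by have := hL u w; omega) (by have := hL u w; split_ifs <;> omega)
    rw [Nat.succ_mul] at h5
    rcases e u with ⟨a1, e1⟩ | ⟨-, e1⟩ <;> rcases e w with ⟨a2, e2⟩ | ⟨-, e2⟩
    · rw [a1, a2] at h4
      omega
    · omega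
    · rw [← a2] at h5
      omega
    · omega
  · have h4 := h.mach u w huw hm
    have h5 := h3 u 1 0 le_rfl (by omega) (by omega)
    have h6 := h3 w 1 0 le_rfl (by omega) (by omega)
    rcases e u with ⟨a1, e1⟩ | ⟨-, e1⟩ <;> rcases e w with ⟨a2, e2⟩ | ⟨-, e2⟩
    · exact absurd (a1.trans a2.symm) huw
    · rw [← a1] at h6
      omega
    · rw [← a2] at h5
      omega
    · omega
  · have h4 := h.down u x hx hm
    have h5 := h2 x hx
    rcases e u with ⟨a1, e1⟩ | ⟨-, e1⟩
    · rw [← a1] at h5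
      omega
    · omega

/-- The possible start times of left shifted schedules. -/
def Cand (L : ℕ) (I : Inst) (t : ℕ) : Prop :=
  ∃ a k j, ((∃ v, a = I.r v) ∨ ∃ e ∈ I.down, a = e.2.2) ∧ k ≤ (L + 1) * I.G.n ∧ j ≤ I.G.n ∧
    t = a + k * I.p + j

theorem NS.left (h : NS m I d s μ) (hp : 1 ≤ I.p) (hL : ∀ u v, I.lag u v ≤ L ∧ I.com u v ≤ 1) :
    ∃ s', NS m I d s' μ ∧ (∀ v, s' v ≤ s v) ∧ ∀ v, Cand L I (s' v) := by
  induction hN : ∑ v, s v using Nat.strong_induction_on generalizing s with
  | _ N ih =>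
    by_cases h0 : ∃ v, s v ≠ I.r v ∧ (∀ e ∈ I.down, s v ≠ e.2.2) ∧
      ∀ u j i, 1 ≤ j → j ≤ L + 1 → i ≤ 1 → s v ≠ s u + j * I.p + i
    · obtain ⟨v, h1, h2, h3⟩ := h0
      have h4 : ∀ u, Function.update s v (s v - 1) u ≤ s u := fun u => by
        by_cases hu : u = v
        · subst hu
          simp
        · rw [Function.update_of_ne hu]
      obtain ⟨s', h5, h6, h7⟩ := ih _ (by
        rw [← hN]
        refine sum_lt_sum (fun u _ => h4 u) ⟨v, mem_univ _, ?_⟩
        have := h.rel v
        rw [Function.update_self]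
        omega) (h.shift hp hL v h1 h2 h3) rfl
      exact ⟨s', h5, fun u => (h6 u).trans (h4 u), h7⟩
    · refine ⟨s, h, fun _ => le_rfl, fun v => ?_⟩
      have key : ∀ t v, s v = t → ∃ a k j, ((∃ v, a = I.r v) ∨ ∃ e ∈ I.down, a = e.2.2) ∧
          k ≤ (L + 1) * (univ.filter fun u => s u < s v).card ∧
          j ≤ (univ.filter fun u => s u < s v).card ∧ s v = a + k * I.p + j := by
        intro t
        induction t using Nat.strong_induction_on with
        | _ t iht =>
          intro v hv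
          by_cases h1 : s v = I.r v
          · exact ⟨_, 0, 0, Or.inl ⟨v, rfl⟩, Nat.zero_le _, Nat.zero_le _, by omega⟩
          by_cases h2 : ∀ e ∈ I.down, s v ≠ e.2.2
          · have h3 : ¬ ∀ u j i, 1 ≤ j → j ≤ L + 1 → i ≤ 1 → s v ≠ s u + j * I.p + i :=
              fun h3 => h0 ⟨v, h1, h2, h3⟩
            push Not at h3
            obtain ⟨u, j, i, h4, h5, hi, h6⟩ := h3
            have h7 : s u < s v := by
              have := Nat.mul_le_mul h4 hp
              omega
            obtain ⟨a, k, l, h8, h9, hl, h10⟩ := iht _ (by omega) u rfl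
            have h11 : (univ.filter fun x => s x < s u).card <
                (univ.filter fun x => s x < s v).card :=
              card_lt_card ⟨fun x hx => by
                simp only [mem_filter, mem_univ, true_and] at hx ⊢
                omega, fun h' => by
                have := h' (mem_filter.2 ⟨mem_univ u, h7⟩)
                simp at this⟩
            have := Nat.mul_le_mul_left (L + 1) (Nat.succ_le_of_lt h11)
            rw [Nat.mul_succ] at this
            exact ⟨a, k + j, l + i, h8, by omega, by omega, by rw [h6, h10]; ring⟩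
          · push Not at h2
            obtain ⟨e, he, h2⟩ := h2
            exact ⟨_, 0, 0, Or.inr ⟨e, he, rfl⟩, Nat.zero_le _, Nat.zero_le _, by omega⟩
      obtain ⟨a, k, j, h1, h2, h3, h4⟩ := key _ v rfl
      have h5 : (univ.filter fun u => s u < s v).card ≤ I.G.n :=
        (card_filter_le _ _).trans (by simp)
      exact ⟨a, k, j, h1, h2.trans (Nat.mul_le_mul_left _ h5), h3.trans h5, h4⟩

end Vale.Agent.N324
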