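import Vale.Agent.N324.Side

/-!
The structure theorem: every admissible schedule can be rearranged so that it has a decomposition
tree all of whose job sets have short descriptions.
-/

namespace Vale.Agent.N324

open Finset

/-- The induction claim for intervals of length at most `l`. -/
def Claim (V : Type*) [Fintype V] [DecidableEq V] (l : ℕ) : Prop :=
  ∀ (E : Env V), E.Good → ∀ (X : Set V) (s t : ℤ) (τ : V → ℤ) (U P L N W Q G O : Set V),
    t - s ≤ l → Sch E X s t τ τ → SideU E X s t τ U P L N → SideW E X s t τ W Q G O →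
    X = uset U P L N ∩ uset W Q G O →
    (Term E.At (E.M + 7) U ∨ Term E.At (E.M + 7) W) →
    ∃ σ, Sch E X s t τ σ ∧ Tree (Term E.At (E.M + 13)) E.q σ s t

variable {V : Type*} [Fintype V] [DecidableEq V] {E : Env V} {X : Set V} {s t : ℤ}
  {τ σ ρ : V → ℤ} {U P L N W Q G O : Set V}

omit [Fintype V] [DecidableEq V] in
theorem SideW.rebase (h : SideW E X s t τ W Q G O) (h0 : Sch E X s t τ τ)
    (hσ : Sch E X s t τ σ) : SideW E X s t σ W Q G O :=
  SideU.rebase h h0.toRev hσ.toRev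

theorem SideW.left (hE : E.Good) (h : SideW E X s t σ W Q G O) (hσ : Sch E X s t σ σ) {t' : ℤ}
    (ht : t' ≤ t) : SideW E {v | s < σ v ∧ σ v < t'} s t' σ W Q G O :=
  SideU.right hE.rev h hσ.toRev (by omega) fun v => by
    simp only [Set.mem_ofPred_eq]
    omega

/-- The description of the later part of a cut. -/
theorem descR (hE : E.Good) (hW : SideW E X s t σ W Q G O) (hσ : Sch E X s t σ σ) {Y : Set V}
    (hX : X = Y ∩ uset W Q G O) {f : ℤ} (hs : f + E.q ≤ t) (hf : s < f) {D K : Set V}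
    (gl : GoodL E X σ D f) (gr : GoodR E X σ D f) (hK1 : ∀ v ∈ X, v ∉ D → v ∈ K)
    (hK2 : ∀ v ∈ K, v ∉ D)
    (hK3 : ∀ v ∈ K, v ∉ Nset E.rev (fun v => - σ v) (-f) → v ∈ uset W Q G O) :
    {v | f + E.q - 1 < σ v ∧ σ v < t} = Y ∩ ((K ∪ Pset E.rev (fun v => - σ v) (-f)) \
      Nset E.rev (fun v => - σ v) (-f)) := by
  ext v
  rw [Set.inter_comm, ← desc hE.rev hW hσ.toRev (hX.trans (Set.inter_comm _ _))
    (by simp only [Env.rev]; omega) (by omega) (D := Dᶜ) (gr.pset hE.q1) (gl.nset hE.q1) hK1 hK2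
    hK3 v]
  simp only [Env.rev, Set.mem_ofPred_eq]
  omega

/-- A fresh lower side. -/
theorem SideW.fresh (hE : E.Good) (hρ : E.Ok ρ) (X : Set V) (t f : ℤ)
    (e : ∀ v, (f - E.q < σ v ∧ σ v < f + E.q) ↔ (f - E.q < ρ v ∧ ρ v < f + E.q)) {K : Set V}
    (hK : Term E.At (E.M + 8) K) (dK : ∀ u v, E.lt u v → u ∈ K → v ∈ K) :
    SideW E X (f + E.q - 1) t ρ ((K ∪ Pset E.rev (fun v => - σ v) (-f)) \
      Nset E.rev (fun v => - σ v) (-f)) (Pset E.rev (fun v => - σ v) (-f)) Set.univ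
      (Nset E.rev (fun v => - σ v) (-f)) := by
  have h := SideU.fresh hE.rev (σ := fun v => - ρ v) (by simpa [Env.rev] using hρ) X (-t) (-f)
    hK (fun u v huv hv => dK v u huv hv)
  obtain ⟨e1, e2⟩ := sets_congr (E := E.rev) (σ := fun v => - σ v) (ρ := fun v => - ρ v)
    (f := -f) fun v => by
      have := e v
      simp only [Env.rev]
      omega
  rw [e1, e2] at h
  unfold SideW
  rwa [show -(f + E.q - 1) = -f - E.rev.q + 1 by simp only [Env.rev]; ring]

omit [Fintype V] [DecidableEq V] in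
theorem exists_leaf {F : Set V → Prop} (h : E.Ok σ) (hst : t ≤ s + 1) :
    ∃ ρ, Sch E {v | s < σ v ∧ σ v < t} s t σ ρ ∧ Tree F E.q ρ s t :=
  ⟨σ, Sch.zone h s t, Tree.leaf fun v hv => by omega⟩

theorem bcut {l : ℕ} (IH : ∀ l' < l, Claim V l') (hE : E.Good) (hl : t - s ≤ l)
    (h : Sch E X s t τ τ) (hU : SideU E X s t τ U P L N) (hW : SideW E X s t τ W Q G O)
    (hX : X = uset U P L N ∩ uset W Q G O)
    (hno : ¬ ∃ x ∈ X, ∃ y ∈ X, x ∉ P ∧ y ∉ Q ∧ E.r y < E.r x) :
    ∃ σ, Sch E X s t τ σ ∧ Tree (Term E.At (E.M + 13)) E.q σ s t := by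
  classical
  have hq := hE.q1
  rcases X.eq_empty_or_nonempty with h0 | ⟨v₀, hv₀⟩
  · exact ⟨τ, h, Tree.leaf fun v hv => by
      have := (h.mem v).2 hv
      rw [h0] at this
      exact this⟩
  have hXm : ∀ v, v ∈ X ↔ v ∈ uset U P L N ∧ v ∈ uset W Q G O := fun v => by rw [hX]; rfl
  obtain ⟨σ, hσ, hopt⟩ := exists_opt h (fun v => if v ∈ P then 0 else 1)
  have hns : NoSwap E X σ P := by
    intro x hx y hy h1 h2 h3 h4
    have := hopt.no_swap' hE hσ.refl hx hy h3 (fun _ _ => rfl) h4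
    simp only [if_neg h1, if_pos h2] at this
    omega
  obtain ⟨y, hy, hymin⟩ := exists_min_image (univ.filter fun v => v ∈ X) σ
    ⟨v₀, mem_filter.2 ⟨mem_univ _, hv₀⟩⟩
  have hyX := (mem_filter.1 hy).2
  obtain ⟨c, hc, -, -, gl, gr⟩ := exists_cut hE hσ hU.dP hns hyX (b := t - 1)
    (by have := (hσ.mem y).1 hyX; omega)
    (fun v hv _ h1 => by have := hymin v (mem_filter.2 ⟨mem_univ _, hv⟩); omega)
    (fun v hv _ h1 => by have := (hσ.mem v).1 hv; omega)
  have hc' := (hσ.mem c).1 hc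
  have hU1 := hU.rebase h hσ
  have hW1 := hW.rebase h hσ
  refine join hE hσ (by rw [hX]; exact hU.term.inter (SideU.term (E := E.rev) hW)) hc ?_ fun ρ hρ hρ2 e => ?_
  · by_cases hs : s ≤ σ c - E.q
    · have tK : Term E.At (E.M + 3) (P \ N) := hU.tP.sdiff hU.tN
      have e1 : {v | s < σ v ∧ σ v < σ c - E.q + 1} = uset (((P \ N) ∪ Pset E σ (σ c)) \
          Nset E σ (σ c)) (Pset E σ (σ c)) Set.univ (Nset E σ (σ c)) ∩ uset W Q G O := by
        ext v
        rw [uset_fresh]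
        exact desc hE hU1 hσ.refl hX hs hc'.2 (gl.pset hq) (gr.nset hq) (K := P \ N)
          (fun v hv h1 => ⟨h1, (mem_uset.1 ((hXm v).1 hv).1).2.2⟩) (fun v hv => hv.1)
          (fun v hv _ => mem_uset.2 ⟨hU.sub v hv.1 hv.2, Or.inl hv.1, hv.2⟩) v
      exact IH (l - 1) (by omega) E hE _ s _ σ _ _ _ _ W Q G O (by omega) (Sch.zone hσ.ok _ _)
        (SideU.fresh hE hσ.ok _ s (σ c) (tK.mono (by omega))
          fun u v huv hv => ⟨hU.dP u v huv hv.1, fun h1 => hv.2 (hU.uN u v huv h1)⟩)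
        (hW1.left hE hσ.refl (by omega)) e1
        (Or.inl (((tK.union ((term_P hE hσ.ok _).mono (by omega))).sdiff
          ((term_N hE hσ.ok _).mono (by omega))).mono (by omega)))
    · exact exists_leaf hσ.ok (by omega)
  · by_cases hs : σ c + E.q ≤ t
    · set B : Set V := {v | ∃ e ∈ X, e ∉ P ∧ e ∉ Q ∧ (e = v ∨ E.lt e v)} with hB
      have tB : Term E.At 1 B := by
        by_cases h1 : ∃ e ∈ X, e ∉ P ∧ e ∉ Q
        · obtain ⟨e, he, h1, h2⟩ := h1
          have e1 : B = {e} ∪ {v | E.lt e v} := by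
            ext v
            constructor
            · rintro ⟨e', he', h3, h4, h5⟩
              have : e' = e := by
                refine hE.inj _ _ ?_
                by_contra hne
                rcases lt_or_gt_of_ne hne with h6 | h6
                · exact hno ⟨e, he, e', he', h1, h4, h6⟩
                · exact hno ⟨e', he', e, he, h3, h2, h6⟩
              subst this
              exact h5.imp Eq.symm id
            · intro hv
              exact ⟨e, he, h1, h2, hv.imp Eq.symm id⟩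
          rw [e1]
          exact (Term.atom (hE.a2 e)).union (Term.atom (hE.a4 e))
        · have e1 : B = ∅ := Set.eq_empty_of_forall_notMem fun v ⟨e, he, h2, h3, _⟩ =>
            h1 ⟨e, he, h2, h3⟩
          rw [e1]
          exact (Term.atom hE.a0).succ
      have tK : Term E.At (E.M + 5) (((Q \ O) ∪ B) \ P) :=
        ((hW.tP.sdiff hW.tN).union (tB.mono (by simp only [Env.rev]; omega))).sdiff
          (hU.tP.mono (by simp only [Env.rev]; omega))
      have e2 := descR hE hW1 hσ.refl hX hs hc'.1 gl gr (K := ((Q \ O) ∪ B) \ P)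
        (fun v hv h1 => by
          refine ⟨?_, h1⟩
          by_cases h2 : v ∈ Q
          · exact Or.inl ⟨h2, (mem_uset.1 ((hXm v).1 hv).2).2.2⟩
          · exact Or.inr ⟨v, hv, h1, h2, Or.inl rfl⟩) (fun v hv => hv.2)
        (fun v hv _ => by
          rcases hv.1 with h1 | ⟨e, he, -, -, rfl | h1⟩
          · exact mem_uset.2 ⟨hW.sub v h1.1 h1.2, Or.inl h1.1, h1.2⟩
          · exact ((hXm e).1 he).2
          · exact SideU.uset_down hE.rev hW h1 ((hXm e).1 he).2)
      rw [← uset_fresh] at e2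
      have hneg : E.rev.Ok fun v => - σ v := hσ.toRev.ok
      exact IH (l - 1) (by omega) E hE _ _ t ρ U P L N _ _ _ _ (by omega) hρ2
        ((hU1.rebase hσ.refl hρ).right hE hρ.refl (by omega) hρ2.mem)
        (SideW.fresh hE hρ.ok _ t (σ c) e (tK.mono (by omega)) fun u v huv hu => by
          refine ⟨?_, fun h1 => hu.2 (hU.dP u v huv h1)⟩
          rcases hu.1 with h1 | ⟨e, he, h1, h2, h3⟩
          · exact Or.inl ⟨hW.dP v u huv h1.1, fun h2 => h1.2 (hW.uN v u huv h2)⟩
          · refine Or.inr ⟨e, he, h1, h2, Or.inr ?_⟩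
            rcases h3 with rfl | h3
            · exact huv
            · exact hE.tr _ _ _ h3 huv) e2
        (Or.inr ((tK.union ((term_P hE.rev hneg _).mono (by simp only [Env.rev]; omega))).sdiff
          ((term_N hE.rev hneg _).mono (by simp only [Env.rev]; omega))))
    · exact ⟨ρ, hρ2, Tree.leaf fun v hv => by omega⟩

/-- The invariant of the earlier part of a cut along a rank threshold. -/
theorem low_block (hE : E.Good) (hσ : Sch E X s t σ σ) (hopt : Opt E X s t E.r σ) {f : ℤ}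
    (hs : s ≤ f - E.q) (hf : f < t) {D : Set V} (gr : GoodR E X σ D f)
    (hρ : Sch E {v | s < σ v ∧ σ v < f - E.q + 1} s (f - E.q + 1) σ ρ) {x : V}
    (hx : s < σ x ∧ σ x < f - E.q + 1)
    (hsink : ∀ z ∈ {v | s < σ v ∧ σ v < f - E.q + 1}, ¬ E.lt x z) (hxP : x ∉ Pset E σ f)
    (hD : ∀ v, E.r v < E.r x → v ∈ D) :
    ∀ w ∈ X, f - E.q < σ w → E.r w < E.r x →
      ρ x < E.lo w ∨ ∃ u, E.lt u w ∧ ρ x - E.q < ρ u ∧ ρ u < f - E.q + 1 := by
  have hq := hE.q1
  have hρX : Sch E X s t σ ρ := hσ.sub le_rfl (by omega) (fun _ => Iff.rfl) hρ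
  have hρx := (hρ.mem x).1 hx
  have hout : ∀ v, f - E.q < σ v → ρ v = σ v := fun v hv => hρ.out v fun h1 => by
    have := h1.2
    omega
  have hout' : ∀ v, f - E.q < ρ v → ρ v = σ v := fun v hv => hρ.out v fun h1 => by
    have := (hρ.mem v).1 h1
    omega
  have key : ∀ k : ℕ, ∀ w ∈ X, f - E.q < σ w → σ w - (f - E.q) ≤ k → E.r w < E.r x →
      ρ x < E.lo w ∨ ∃ u, E.lt u w ∧ ρ x - E.q < ρ u ∧ ρ u < f - E.q + 1 := by
    intro k
    induction k with
    | zero => intro w _ h1 h2; omega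
    | succ k ih =>
      intro w hw h1 h2 h3
      have hw' := (hσ.mem w).1 hw
      have step : ∀ a, E.lt a w → f - E.q < σ a →
          ρ x < E.lo w ∨ ∃ u, E.lt u w ∧ ρ x - E.q < ρ u ∧ ρ u < f - E.q + 1 := by
        intro a ha h4
        have h5 := hE.mono σ hσ.ok a w ha
        have h6 := hE.rmono a w ha
        rcases ih a ((hσ.mem a).2 (by omega)) h4 (by push_cast at h2; omega) (by omega) with
          h7 | ⟨u, h7, h8⟩
        · exact Or.inl (h7.trans_le (hE.lomono a w ha))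
        · exact Or.inr ⟨u, hE.tr _ _ _ h7 ha, h8⟩
      by_cases h4 : f < σ w
      · rcases gr w hw (hD w h3) h4 with ⟨a, h5, -, h6⟩ | h5
        · exact step a h6 h5
        · exact Or.inl (by omega)
      · by_contra hcon
        have ew := hout w h1
        have := hopt.no_swap' hE hρX ((hσ.mem x).2 (by omega)) hw (by omega)
          (fun v hv => hv.elim (fun h5 => hout v (by omega)) fun h5 => hout' v (by omega))
          ⟨fun z hz => ?_, fun z hz => ?_, ?_, ?_⟩
        · omega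
        · have h5 := hE.mono ρ hρ.ok x z hz
          have h6 : ¬ (s < ρ z ∧ ρ z < f - E.q + 1) := fun h6 => hsink z ((hρ.mem z).2 h6) hz
          have h7 := hout' z (by omega)
          by_contra h8
          exact hxP (Or.inl ⟨z, by omega, by omega, hz⟩)
        · by_contra h5
          by_cases h6 : ρ z < f - E.q + 1
          · exact hcon (Or.inr ⟨z, hz, by omega, h6⟩)
          · have h7 := hout' z (by omega)
            exact hcon (step z hz (by omega))
        · by_contra h5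
          exact hxP (Or.inr (by omega))
        · by_contra h5
          exact hcon (Or.inl (by omega))
  intro w hw h1 h2
  exact key (σ w - (f - E.q)).toNat w hw h1 (by omega) h2

theorem acut {l : ℕ} (IH : ∀ l' < l, Claim V l') (hE : E.Good) (hl : t - s ≤ l)
    (h : Sch E X s t τ τ) (hU : SideU E X s t τ U P L N) (hW : SideW E X s t τ W Q G O)
    (hX : X = uset U P L N ∩ uset W Q G O) (hW0 : Term E.At (E.M + 7) W)
    (hxy : ∃ x ∈ X, ∃ y ∈ X, x ∉ P ∧ y ∉ Q ∧ E.r y < E.r x) :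
    ∃ σ, Sch E X s t τ σ ∧ Tree (Term E.At (E.M + 13)) E.q σ s t := by
  classical
  have hq := hE.q1
  have hXm : ∀ v, v ∈ X ↔ v ∈ uset U P L N ∧ v ∈ uset W Q G O := fun v => by rw [hX]; rfl
  obtain ⟨x₀, hx₀, y₀, hy₀, hx₀P, hy₀Q, hr₀⟩ := hxy
  obtain ⟨x, hx', hxmax⟩ := exists_max_image (univ.filter fun v => v ∈ X ∧ v ∉ P) E.r
    ⟨x₀, mem_filter.2 ⟨mem_univ _, hx₀, hx₀P⟩⟩
  obtain ⟨y, hy', hymin⟩ := exists_min_image (univ.filter fun v => v ∈ X ∧ v ∉ Q) E.r
    ⟨y₀, mem_filter.2 ⟨mem_univ _, hy₀, hy₀Q⟩⟩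
  obtain ⟨-, hx, hxP⟩ := mem_filter.1 hx'
  obtain ⟨-, hy, hyQ⟩ := mem_filter.1 hy'
  have hyx : E.r y < E.r x := by
    have h1 := hxmax x₀ (mem_filter.2 ⟨mem_univ _, hx₀, hx₀P⟩)
    have h2 := hymin y₀ (mem_filter.2 ⟨mem_univ _, hy₀, hy₀Q⟩)
    omega
  have hxsink : ∀ z ∈ X, ¬ E.lt x z := by
    intro z hz hxz
    have h1 := hxmax z (mem_filter.2 ⟨mem_univ _, hz, fun h2 => hxP (hU.dP x z hxz h2)⟩)
    have h2 := hE.rmono _ _ hxz
    omega
  have hysrc : ∀ z ∈ X, ¬ E.lt z y := by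
    intro z hz hzy
    have h1 := hymin z (mem_filter.2 ⟨mem_univ _, hz, fun h2 => hyQ (hW.dP y z hzy h2)⟩)
    have h2 := hE.rmono _ _ hzy
    omega
  have hxL : x ∈ L := (mem_uset.1 ((hXm x).1 hx).1).2.1.resolve_left hxP
  have hyG : y ∈ G := (mem_uset.1 ((hXm y).1 hy).2).2.1.resolve_left hyQ
  obtain ⟨σ, hσ, hopt⟩ := exists_opt h E.r
  have hU1 := hU.rebase h hσ
  have hW1 := hW.rebase h hσ
  set D : Set V := {v | E.r v < E.r x} with hD
  have dD : ∀ u v, E.lt u v → v ∈ D → u ∈ D := fun u v huv h1 => (hE.rmono _ _ huv).trans h1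
  have hns : NoSwap E X σ D := by
    intro a ha b hb h1 h2 h3 h4
    have := hopt.no_swap' hE hσ.refl ha hb h3 (fun _ _ => rfl) h4
    simp only [hD, Set.mem_ofPred_eq] at h1 h2
    omega
  have hx1 := (hσ.mem x).1 hx
  have hy1 := (hσ.mem y).1 hy
  have hxs : ∀ z, E.lt x z → t + E.q ≤ σ z := by
    intro z hz
    have h1 := hE.mono σ hσ.ok x z hz
    have h2 : ¬ (s < σ z ∧ σ z < t) := fun h2 => hxsink z ((hσ.mem z).2 h2) hz
    by_contra h3
    exact hxP (hU1.preS z x (by omega) (by omega) hz)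
  have hxh : t ≤ E.hi x := by
    by_contra h1
    exact hxP (hU1.hiS x (by omega))
  have hys : ∀ z, E.lt z y → σ z + E.q ≤ s := by
    intro z hz
    have h1 := hE.mono σ hσ.ok z y hz
    have h2 : ¬ (s < σ z ∧ σ z < t) := fun h2 => hysrc z ((hσ.mem z).2 h2) hz
    by_contra h3
    exact hyQ (hW1.preS z y (by omega) (by simp only [Env.rev]; omega) hz)
  have hyl : E.lo y ≤ s := by
    by_contra h1
    exact hyQ (hW1.hiS y (by simp only [Env.rev]; omega))
  have hxD : x ∉ D := lt_irrefl (E.r x)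
  have hyxt : σ y ≤ σ x := by
    by_contra h1
    exact hns x hx y hy hxD hyx (not_le.1 h1) ⟨fun z hz => by have := hxs z hz; omega,
      fun z hz => by have := hys z hz; omega, by omega, by omega⟩
  obtain ⟨c, hc, hf1, hf2, gl, gr⟩ := exists_cut hE hσ dD hns hy hyxt
    (src_rule hE hσ dD hns hy hyx hys hyl) (fwd_rule hE hσ dD hns hx hxD hxs hxh)
  have hc' := (hσ.mem c).1 hc
  refine join hE hσ (by rw [hX]; exact hU.term.inter (SideU.term (E := E.rev) hW)) hc ?_ fun ρ hρ hρ2 e => ?_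
  · by_cases hs : s ≤ σ c - E.q
    · have hsub : ∀ v ∈ Pset E σ (σ c), v ∉ Nset E σ (σ c) → v ∈ U := fun v h1 h2 =>
        (mem_uset.1 (hU1.pset_mem hE hσ.refl (fun u hu => ((hXm u).1 hu).1) hs hc'.2 h1 h2)).1
      have e1 : {v | s < σ v ∧ σ v < σ c - E.q + 1} =
          uset U (Pset E σ (σ c)) D (Nset E σ (σ c)) ∩ uset W Q G O := by
        ext v
        have := desc hE hU1 hσ.refl hX hs hc'.2 (gl.pset hq) (gr.nset hq) (K := U ∩ D)
          (fun v hv h1 => ⟨(mem_uset.1 ((hXm v).1 hv).1).1, h1⟩) (fun v hv => hv.2)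
          (hU1.low_mem hE hσ.refl hs hx hxsink hxP hxL hf2 dD (fun _ hv => hv) (gr.nset hq)) v
        rw [Set.mem_ofPred_eq, this, Set.mem_inter_iff, Set.mem_inter_iff, mem_uset (N := Nset _ _ _)]
        constructor
        · rintro ⟨⟨h1, h2⟩, h3⟩
          rcases h1 with h1 | h1
          · exact ⟨⟨h1.1, Or.inr h1.2, h2⟩, h3⟩
          · exact ⟨⟨hsub v h1 h2, Or.inl h1, h2⟩, h3⟩
        · rintro ⟨⟨h0, h1, h2⟩, h3⟩
          exact ⟨⟨h1.symm.imp (fun h4 => ⟨h0, h4⟩) id, h2⟩, h3⟩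
      have hF := SideU.fresh hE hσ.ok X s (σ c) (K := ∅) ((Term.atom hE.a0).mono (Nat.zero_le _))
        (fun _ _ _ h => h)
      refine IH (l - 1) (by omega) E hE _ s _ σ U _ D _ W Q G O (by omega) (Sch.zone hσ.ok _ _)
        ⟨hU.tU, hF.tP, Term.atom (hE.a5 x), hF.tN, hU.dU, hF.dP,
          fun u v huv hv => lt_of_le_of_lt huv hv, hF.uN, hF.posN, hsub,
          fun a h1 h2 _ => Or.inl (by omega), hF.preS, hF.hiS, ?_⟩
        (hW1.left hE hσ.refl (by omega)) e1 (Or.inr hW0)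
      intro π hπ z hz hzs hzP v hvN hvU hr
      have hzD : E.r z < E.r x := by
        have h1 : z ∈ uset U (Pset E σ (σ c)) D (Nset E σ (σ c)) ∩ uset W Q G O := e1 ▸ hz
        exact (mem_uset.1 h1.1).2.1.resolve_left hzP
      have hπz := (hπ.mem z).1 hz
      have blk := low_block hE hσ.refl hopt hs hc'.2 gr hπ hz hzs hzP
        (fun v hv => show E.r v < E.r x by omega)
      have key : ∀ a, σ c - E.q < σ a → σ a < σ c + E.q → a ∈ U → E.r a < E.r z →
          π z < E.lo a ∨ ∃ u, E.lt u a ∧ π z - E.q < π u ∧ π u < σ c - E.q + 1 := by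
        intro a h1 h2 h3 h4
        by_cases ha : a ∈ X
        · exact blk a ha h1 h4
        · have h5 : t ≤ σ a := by
            by_contra h5
            exact ha ((hσ.mem a).2 (by omega))
          rcases hU1.inv σ hσ.refl x hx hxsink hxP a (hU1.strip a h5 (by omega) h3) h3 (by omega)
            with h6 | ⟨u, h6, h7, h8⟩
          · exact Or.inl (by omega)
          · have h9 := hE.rmono u a h6
            rcases blk u ((hσ.mem u).2 (by omega)) (by omega) (by omega) with h10 | ⟨u', h10, h11⟩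
            · exact Or.inl (h10.trans_le (hE.lomono u a h6))
            · exact Or.inr ⟨u', hE.tr _ _ _ h10 h6, h11⟩
      rcases hvN with h1 | ⟨a, h1, h2, h3⟩ | h1
      · exact key v h1.1 h1.2 hvU hr
      · have h4 := hE.rmono a v h3
        rcases key a h1 h2 (hU.dU a v h3 hvU) (by omega) with h5 | ⟨u, h5, h6⟩
        · exact Or.inl (h5.trans_le (hE.lomono a v h3))
        · exact Or.inr ⟨u, hE.tr _ _ _ h5 h3, h6⟩
      · exact Or.inl (by omega)
    · exact exists_leaf hσ.ok (by omega)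
  · by_cases hs : σ c + E.q ≤ t
    · have e2 := descR hE hW1 hσ.refl hX hs hc'.1 gl gr (K := W ∩ Dᶜ)
        (fun v hv h1 => ⟨(mem_uset.1 ((hXm v).1 hv).2).1, h1⟩) (fun v hv => hv.2)
        (SideU.low_mem hE.rev hW1 hσ.refl.toRev (by simp only [Env.rev]; omega) hy hysrc hyQ hyG
          (by omega) (fun u v huv hv h1 => hv (dD v u huv h1))
          (fun v hv => by
            simp only [hD, Set.mem_compl_iff, Set.mem_ofPred_eq] at hv
            simp only [Env.rev]
            omega) (gl.nset hq))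
      rw [← uset_fresh] at e2
      have tK : Term E.At (E.M + 8) (W ∩ Dᶜ) := by
        rw [Set.compl_eq_univ_sdiff]
        exact hW0.inter (((Term.atom hE.a1).sdiff (Term.atom (hE.a5 x))).mono (by omega))
      refine bcut IH hE (by omega) hρ2
        ((hU1.rebase hσ.refl hρ).right hE hρ.refl (by omega) hρ2.mem)
        (SideW.fresh hE hρ.ok _ t (σ c) e tK fun u v huv hu =>
          ⟨hW.dU v u huv hu.1, fun h1 => hu.2 (dD u v huv h1)⟩) e2 ?_
      rintro ⟨a, ha, b, hb, h1, h2, h3⟩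
      have ha' : a ∈ X := (hσ.mem a).2 ⟨by have := ha.1; omega, ha.2⟩
      have hb' : b ∈ X := (hσ.mem b).2 ⟨by have := hb.1; omega, hb.2⟩
      have h4 := hxmax a (mem_filter.2 ⟨mem_univ _, ha', h1⟩)
      exact h2 (gr.pset hq b hb' (not_not.2 (show E.r b < E.r x by omega))
        (by have := hb.1; omega))
    · exact ⟨ρ, hρ2, Tree.leaf fun v hv => by omega⟩

theorem claim (V : Type*) [Fintype V] [DecidableEq V] (l : ℕ) : Claim V l := by
  induction l using Nat.strong_induction_on with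
  | _ l IH =>
    intro E hE X s t τ U P L N W Q G O hl h hU hW hX hlev
    by_cases hxy : ∃ x ∈ X, ∃ y ∈ X, x ∉ P ∧ y ∉ Q ∧ E.r y < E.r x
    · rcases hlev with h0 | h0
      · obtain ⟨x, hx, y, hy, h1, h2, h3⟩ := hxy
        obtain ⟨σ, hσ, hT⟩ := acut IH hE.rev (by omega) h.toRev hW hU.toRev
          (hX.trans (Set.inter_comm _ _)) h0 ⟨y, hy, x, hx, h2, h1, by simp only [Env.rev]; omega⟩
        have hT' := hT.neg
        rw [neg_neg, neg_neg] at hT'
        exact ⟨_, hσ.ofRev, hT'⟩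
      · exact acut IH hE hl h hU hW hX h0 hxy
    · exact bcut IH hE hl h hU hW hX hxy

omit [Fintype V] [DecidableEq V] in
theorem uset_top (P : Set V) : uset Set.univ P Set.univ ∅ = Set.univ := by
  simp [uset]

theorem SideU.top (hE : E.Good) (ht : ∀ v, σ v < t) :
    SideU E X s t σ Set.univ {v | E.hi v < t} Set.univ ∅ where
  tU := (Term.atom hE.a1).mono (Nat.zero_le _)
  tP := (Term.atom (hE.a7 t)).mono (Nat.zero_le _)
  tL := Term.atom hE.a1
  tN := (Term.atom hE.a0).mono (Nat.zero_le _)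
  dU _ _ _ h := h
  dP u v huv h := (hE.himono u v huv).trans_lt h
  iL _ _ _ h := h
  uN _ _ _ h := h
  posN _ h := h.elim
  sub _ _ _ := Set.mem_univ _
  strip a h := absurd (ht a) (not_lt.2 h)
  preS z _ h := absurd (ht z) (not_lt.2 h)
  hiS _ h := h
  inv _ _ _ _ _ _ _ h := h.elim

/-- The structure theorem. -/
theorem exists_tree (hE : E.Good) (h : E.Ok τ) (hst : ∀ v, s < τ v ∧ τ v < t) :
    ∃ σ, E.Ok σ ∧ Tree (Term E.At (E.M + 13)) E.q σ s t := by
  obtain ⟨σ, hσ, hT⟩ := claim V (t - s).toNat E hE Set.univ s t τ _ _ _ _ _ _ _ _ (by omega)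
    ⟨h, fun v => ⟨fun _ => hst v, fun _ => Set.mem_univ _⟩, fun _ _ => rfl⟩
    (SideU.top hE fun v => (hst v).2)
    (SideU.top hE.rev fun v => by have := (hst v).1; omega)
    (by rw [uset_top, uset_top, Set.inter_self])
    (Or.inl ((Term.atom hE.a1).mono (Nat.zero_le _)))
  exact ⟨σ, hσ.ok, hT⟩

end Vale.Agent.N324
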