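import Vale.Agent.N324.Alg
import Vale.Agent.N324.Shift
import Vale.Agent.N324.Struct
import Vale.Agent.P324.Final

/-!
The concrete scheduling problem satisfies the axioms of the abstract setting.
-/

namespace Vale.Agent.N324

open List Vale.Agent.Lib.PolyTime Vale.Agent.P324

/-- The input that belongs to an instance with the due dates `d`. -/
def dat (I : Inst) (d : Fin I.G.n → ℕ) : Dat :=
  (⟨I.G.code⟩, I.p, ofFn I.r, ofFn d, ofFn (fun u => ofFn (I.lag u)),
    ofFn (fun u => ofFn (I.com u)), I.down)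

theorem getD_ofFn {β : Type*} {n : ℕ} (f : Fin n → β) (v : Fin n) (x : β) :
    (ofFn f).getD v x = f v := by
  rw [getD_eq_getElem _ _ (by simp)]
  simp

theorem mn_spec (x : ℕ) (l : List ℕ) : mn (x :: l) ∈ x :: l ∧ ∀ y ∈ x :: l, mn (x :: l) ≤ y := by
  obtain ⟨z, hz⟩ := best_ne (fun x => x) (l := x :: l) mem_cons_self
  have h := mem_of_best (hz ▸ mem_singleton.2 rfl : z ∈ best (fun x => x) (x :: l))
  have e : mn (x :: l) = z := by simp [mn, hz]
  rw [e]
  exact h

theorem mx_spec {l : List ℕ} {x : ℕ} (hx : x ∈ l) : mx l ∈ l ∧ ∀ y ∈ l, y ≤ mx l := by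
  obtain ⟨z, hz⟩ := best_ne (fun x => l.sum - x) hx
  have h := mem_of_best (hz ▸ mem_singleton.2 rfl : z ∈ best (fun x => l.sum - x) l)
  have e : mx l = z := by simp [mx, hz]
  rw [e]
  refine ⟨h.1, fun y hy => ?_⟩
  have h1 := h.2 y hy
  have h2 := List.le_sum_of_mem hy
  have h3 := List.le_sum_of_mem h.1
  omega

variable {m L : ℕ} {I : Inst} {d s μ : Fin I.G.n → ℕ}

/-- The transitive closure of the precedence graph. -/
def Inst.lt (I : Inst) : Fin I.G.n → Fin I.G.n → Prop :=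
  Relation.TransGen fun a b => I.G.arc a b = true

theorem nW_dat : nW (dat I d).w = I.G.n := by
  have := nW_code I.G []
  rwa [append_nil] at this

theorem arcW_dat (u v : Fin I.G.n) : arcW (dat I d).w u v = I.G.arc u v := by
  have := arcW_code I.G [] u v
  rwa [append_nil] at this

theorem ltL_dat (u v : Fin I.G.n) : ltL (preds (dat I d).w) u v = true ↔ I.lt u v := by
  have := ltF_iff I.G [] u v
  rwa [append_nil] at this

theorem len_dat : (preds (dat I d).w).length = I.G.n := (length_preds _).trans nW_dat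

theorem loL_spec (v : Fin I.G.n) : (∃ u, (u = v ∨ I.lt u v) ∧ loL I.G.n (dat I d) v = I.r u) ∧
    ∀ u, u = v ∨ I.lt u v → I.r u ≤ loL I.G.n (dat I d) v := by
  have e : ∀ u : Fin I.G.n, (dat I d).r.getD u 0 = I.r u := fun u => getD_ofFn _ _ _
  obtain ⟨h1, h2⟩ := mx_spec (l := (dat I d).r.getD v 0 :: ((range I.G.n).filter fun u =>
    ltL (preds (dat I d).w) u v).map fun u => (dat I d).r.getD u 0) mem_cons_self
  constructor
  · rcases mem_cons.1 h1 with h | h
    · exact ⟨v, Or.inl rfl, h.trans (e v)⟩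
    · obtain ⟨u, hu, h3⟩ := mem_map.1 h
      obtain ⟨h4, h5⟩ := mem_filter.1 hu
      exact ⟨⟨u, mem_range.1 h4⟩, Or.inr ((ltL_dat _ _).1 h5), h3.symm.trans (e ⟨u, _⟩)⟩
  · rintro u (rfl | h)
    · exact (e u).symm.le.trans (h2 _ mem_cons_self)
    · exact (e u).symm.le.trans (h2 _ (mem_cons_of_mem _ (mem_map.2 ⟨u, mem_filter.2
        ⟨mem_range.2 u.2, (ltL_dat _ _).2 h⟩, rfl⟩)))

theorem hdL_spec (v : Fin I.G.n) : (∃ u, (u = v ∨ I.lt v u) ∧ hdL I.G.n (dat I d) v = d u) ∧
    ∀ u, u = v ∨ I.lt v u → hdL I.G.n (dat I d) v ≤ d u := by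
  have e : ∀ u : Fin I.G.n, (dat I d).d.getD u 0 = d u := fun u => getD_ofFn _ _ _
  obtain ⟨h1, h2⟩ := mn_spec ((dat I d).d.getD v 0) (((range I.G.n).filter fun u =>
    ltL (preds (dat I d).w) v u).map fun u => (dat I d).d.getD u 0)
  constructor
  · rcases mem_cons.1 h1 with h | h
    · exact ⟨v, Or.inl rfl, h.trans (e v)⟩
    · obtain ⟨u, hu, h3⟩ := mem_map.1 h
      obtain ⟨h4, h5⟩ := mem_filter.1 hu
      exact ⟨⟨u, mem_range.1 h4⟩, Or.inr ((ltL_dat _ _).1 h5), h3.symm.trans (e ⟨u, _⟩)⟩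
  · rintro u (rfl | h)
    · exact (h2 _ mem_cons_self).trans (e u).le
    · exact (h2 _ (mem_cons_of_mem _ (mem_map.2 ⟨u, mem_filter.2
        ⟨mem_range.2 u.2, (ltL_dat _ _).2 h⟩, rfl⟩))).trans (e u).le

theorem NS.mono (h : NS m I d s μ) (hp : 1 ≤ I.p) {u v : Fin I.G.n} (huv : I.lt u v) :
    s u < s v := by
  induction huv with
  | single h' => have := h.arc _ _ h'; omega
  | tail _ h' ih => have := h.arc _ _ h'; omega

theorem NS.card (h : NS m I d s μ) (hp : 1 ≤ I.p) (L : ℕ) (f : ℤ) :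
    (Finset.univ.filter fun z => f - ((L + 1) * I.p : ℕ) < s z ∧
      (s z : ℤ) < f + ((L + 1) * I.p : ℕ)).card ≤ 2 * (L + 1) * m := by
  have key : ∀ a b : ℕ, a + I.p ≤ b → a / I.p < b / I.p := fun a b hab => by
    have := Nat.div_le_div_right (c := I.p) hab
    rw [Nat.add_div_right _ hp] at this
    omega
  refine le_trans (Finset.card_le_card_of_injOn (t := Finset.range (2 * (L + 1)) ×ˢ Finset.range m)
    (fun z => (((s z : ℤ) - (f - ((L + 1) * I.p : ℕ))).toNat / I.p, μ z)) (fun z hz => ?_)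
    fun u hu v hv e => ?_) (by simp)
  · simp only [Finset.coe_filter, Finset.mem_univ, true_and, Set.mem_ofPred_eq] at hz
    simp only [Finset.coe_product, Finset.coe_range, Set.mem_prod, Set.mem_Iio]
    refine ⟨(Nat.div_lt_iff_lt_mul hp).2 ?_, h.lt z⟩
    rw [mul_assoc]
    omega
  · simp only [Finset.coe_filter, Finset.mem_univ, true_and, Set.mem_ofPred_eq] at hu hv
    obtain ⟨e1, e2⟩ := Prod.mk.inj e
    by_contra huv
    rcases h.mach u v huv e2 with h1 | h1
    · exact absurd e1 (key _ _ (by omega)).ne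
    · exact absurd e1 (key _ _ (by omega)).ne'

/-- The abstract setting that belongs to a schedule. -/
def env (m L : ℕ) (I : Inst) (d s μ : Fin I.G.n → ℕ) : Env (Fin I.G.n) where
  lt := I.lt
  r := rkF I.G.n (preds (dat I d).w)
  lo v := loL I.G.n (dat I d) v
  hi v := (hdL I.G.n (dat I d) v : ℤ) - I.p
  q := ((L + 1 + 1) * I.p : ℕ)
  M := 2 * (L + 1 + 1) * m
  Ok σ := ∃ π : Equiv.Perm (Fin I.G.n), (∀ v, σ v = s (π v)) ∧
    NS m I d (fun v => s (π v)) fun v => μ (π v)
  At X := ∃ A ∈ atomsD I.G.n (dat I d), ∀ v : Fin I.G.n, v.val ∈ A ↔ v ∈ X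

theorem NS.swap (h : NS m I d s μ) (hp : 1 ≤ I.p) (hL : ∀ u v, I.lag u v ≤ L ∧ I.com u v ≤ 1)
    {x y : Fin I.G.n} (hxy : s x < s y) (h1 : ∀ z, I.lt x z → s y + (L + 1 + 1) * I.p ≤ s z)
    (h2 : ∀ z, I.lt z y → s z + (L + 1 + 1) * I.p ≤ s x) (h3 : s y + I.p ≤ d x) (h4 : I.r y ≤ s x) :
    NS m I d (fun v => s (Equiv.swap x y v)) fun v => μ (Equiv.swap x y v) := by
  have e : ∀ v, (v = x ∧ Equiv.swap x y v = y) ∨ (v = y ∧ Equiv.swap x y v = x) ∨
      (v ≠ x ∧ v ≠ y ∧ Equiv.swap x y v = v) := fun v => by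
    by_cases a1 : v = x
    · exact Or.inl ⟨a1, by rw [a1, Equiv.swap_apply_left]⟩
    · by_cases a2 : v = y
      · exact Or.inr (Or.inl ⟨a2, by rw [a2, Equiv.swap_apply_right]⟩)
      · exact Or.inr (Or.inr ⟨a1, a2, Equiv.swap_apply_of_ne_of_ne a1 a2⟩)
  refine ⟨fun v => h.lt _, fun v => ?_, fun v => ?_, fun u v huv => ?_,
    fun u v huv => h.mach _ _ fun e => huv ((Equiv.swap x y).injective e), fun v => h.down _⟩
  · have := h.rel v
    rcases e v with ⟨rfl, e1⟩ | ⟨rfl, e1⟩ | ⟨-, -, e1⟩ <;> simp only [e1] <;> omega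
  · have := h.dl v
    rcases e v with ⟨rfl, e1⟩ | ⟨rfl, e1⟩ | ⟨-, -, e1⟩ <;> simp only [e1] <;> omega
  · have a1 := h.arc u v huv
    have a2 := Nat.mul_le_mul_right I.p (hL u v).1
    have a3 : u = x → s y + (L + 1 + 1) * I.p ≤ s v := fun e => h1 v (e ▸ .single huv)
    have a4 : v = y → s u + (L + 1 + 1) * I.p ≤ s x := fun e => h2 u (e ▸ .single huv)
    have a5 : (if μ (Equiv.swap x y u) = μ (Equiv.swap x y v) then 0 else I.com u v) ≤ 1 := by
      have := (hL u v).2
      split_ifs <;> omega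
    rw [Nat.succ_mul, Nat.succ_mul] at a3 a4
    rcases e u with ⟨b1, e1⟩ | ⟨b1, e1⟩ | ⟨-, -, e1⟩ <;>
      rcases e v with ⟨b2, e2⟩ | ⟨b2, e2⟩ | ⟨-, -, e2⟩ <;> simp only [e1, e2] at a5 ⊢
    · rw [b1, b2] at a1
      omega
    · have := a3 b1
      rw [b2] at this
      omega
    · have := a3 b1
      omega
    · rw [b1, b2] at a1
      omega
    · rw [b1, b2] at a1
      omega
    · rw [← b1] at hxy
      omega
    · rw [← b2] at hxy
      omega
    · have := a4 b2
      omega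
    · exact a1

theorem at_base {A : List ℕ} (v : Fin I.G.n) (h : A ∈ atomsAt (preds (dat I d).w) v) :
    A ∈ atomsD I.G.n (dat I d) :=
  mem_append_left _ (atomsAt_mem len_dat v h)

theorem env_good (h : NS m I d s μ) (hp : 1 ≤ I.p)
    (hL : ∀ u v, I.lag u v ≤ L ∧ I.com u v ≤ 1) :
    (env m L I d s μ).Good where
  tr _ _ _ h1 h2 := h1.trans h2
  inj _ _ e := rkF_injective _ _ len_dat e
  rmono a b h1 := by
    have := rkF_lt I.G (fun v hv => lt_irrefl _ (h.mono hp hv)) [] a b ((ltF_iff I.G [] a b).2 h1)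
    rwa [append_nil] at this
  q1 := by
    have := Nat.mul_le_mul (Nat.le_add_left 1 (L + 1)) hp
    simp only [env]
    omega
  lomono a b h1 := by
    obtain ⟨u, hu, e⟩ := (loL_spec (d := d) a).1
    have := (loL_spec (d := d) b).2 u (Or.inr (hu.elim (fun e => e ▸ h1) fun h2 => h2.trans h1))
    simp only [env]
    omega
  himono a b h1 := by
    obtain ⟨u, hu, e⟩ := (hdL_spec (d := d) b).1
    have := (hdL_spec (d := d) a).2 u (Or.inr (hu.elim (fun e => e ▸ h1) fun h2 => h1.trans h2))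
    simp only [env]
    omega
  mono := by
    rintro σ ⟨π, e, h1⟩ a b hab
    have := h1.mono hp hab
    rw [e, e]
    omega
  lo_le := by
    rintro σ ⟨π, e, h1⟩ v
    obtain ⟨u, hu, e1⟩ := (loL_spec (d := d) v).1
    have h2 := h1.rel u
    have h3 : s (π u) ≤ s (π v) := hu.elim (fun e => e ▸ le_rfl) fun h2 => (h1.mono hp h2).le
    rw [e]
    simp only [env]
    omega
  le_hi := by
    rintro σ ⟨π, e, h1⟩ v
    obtain ⟨u, hu, e1⟩ := (hdL_spec (d := d) v).1
    have h2 := h1.dl u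
    have h3 : s (π v) ≤ s (π u) := hu.elim (fun e => e ▸ le_rfl) fun h2 => (h1.mono hp h2).le
    rw [e]
    simp only [env]
    omega
  swap := by
    rintro σ ⟨π, e, h1⟩ x y hxy ⟨h2, h3, h4, h5⟩
    simp only [env, e] at hxy h2 h3 h4 h5
    have h6 := (hdL_spec (d := d) x).2 x (Or.inl rfl)
    have h7 := (loL_spec (d := d) y).2 y (Or.inl rfl)
    exact ⟨(Equiv.swap x y).trans π, fun v => e _, h1.swap hp hL (by omega)
      (fun z hz => by have := h2 z hz; omega) (fun z hz => by have := h3 z hz; omega)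
      (by omega) (by omega)⟩
  card := by
    rintro σ ⟨π, e, h1⟩ f
    simp only [env, e]
    exact h1.card hp (L + 1) f
  a0 := ⟨[], mem_append_left _ mem_cons_self, fun v => by simp⟩
  a1 := ⟨_, mem_append_left _ (mem_cons_of_mem _ mem_cons_self), fun v => by simp [len_dat]⟩
  a2 v := ⟨[v], at_base v mem_cons_self, fun u => by simp [Fin.ext_iff]⟩
  a3 v := ⟨_, at_base v (mem_cons_of_mem _ mem_cons_self), fun u => by
    simp [len_dat, ltL_dat, env]⟩
  a4 v := ⟨_, at_base v (mem_cons_of_mem _ (mem_cons_of_mem _ mem_cons_self)), fun u => by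
    simp [len_dat, ltL_dat, env]⟩
  a5 v := ⟨_, at_base v (mem_cons_of_mem _ (mem_cons_of_mem _ (mem_cons_of_mem _ mem_cons_self))),
    fun u => by simp [len_dat, rkF, env]⟩
  a6 v := ⟨_, at_base v (mem_cons_of_mem _ (mem_cons_of_mem _ (mem_cons_of_mem _
    (mem_cons_of_mem _ mem_cons_self)))), fun u => by simp [len_dat, rkF, env]⟩
  a7 g := by
    by_cases h1 : (Finset.univ.filter fun u => g ≤ (env m L I d s μ).hi u).Nonempty
    · obtain ⟨v, hv, h2⟩ := Finset.exists_min_image _ (env m L I d s μ).hi h1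
      refine ⟨_, mem_append_right _ (mem_flatMap.2 ⟨v, mem_range.2 v.2, mem_cons_self⟩),
        fun u => ?_⟩
      have h3 := fun h4 => h2 u (Finset.mem_filter.2 ⟨Finset.mem_univ _, h4⟩)
      replace hv := (Finset.mem_filter.1 hv).2
      simp only [env] at hv h3
      simp only [mem_filter, mem_range, u.2, true_and, decide_eq_true_eq, Set.mem_ofPred_eq, env]
      omega
    · refine ⟨_, mem_append_left _ (mem_cons_of_mem _ mem_cons_self), fun u => ?_⟩
      have h2 : ¬ g ≤ (env m L I d s μ).hi u := fun h2 =>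
        h1 ⟨u, Finset.mem_filter.2 ⟨Finset.mem_univ _, h2⟩⟩
      simp only [len_dat, mem_range, u.2, Set.mem_ofPred_eq, true_iff]
      omega
  a8 g := by
    by_cases h1 : (Finset.univ.filter fun u => (env m L I d s μ).lo u ≤ g).Nonempty
    · obtain ⟨v, hv, h2⟩ := Finset.exists_max_image _ (env m L I d s μ).lo h1
      refine ⟨_, mem_append_right _ (mem_flatMap.2 ⟨v, mem_range.2 v.2,
        mem_cons_of_mem _ mem_cons_self⟩), fun u => ?_⟩
      have h3 := fun h4 => h2 u (Finset.mem_filter.2 ⟨Finset.mem_univ _, h4⟩)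
      replace hv := (Finset.mem_filter.1 hv).2
      simp only [env] at hv h3
      simp only [mem_filter, mem_range, u.2, true_and, decide_eq_true_eq, Set.mem_ofPred_eq, env]
      omega
    · refine ⟨_, mem_append_left _ (mem_cons_of_mem _ mem_cons_self), fun u => ?_⟩
      have h2 : ¬ (env m L I d s μ).lo u ≤ g := fun h2 =>
        h1 ⟨u, Finset.mem_filter.2 ⟨Finset.mem_univ _, h2⟩⟩
      simp only [len_dat, mem_range, u.2, Set.mem_ofPred_eq, true_iff]
      omega

end Vale.Agent.N324
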